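import Vale.Agent.P221.T.Gc
import Vale.Agent.P251.M.Tel
import Vale.Agent.P221.H395.Comp2

/-!
# P221, part T: systems of spectra, towers (frozen interface)

* `SrcT p n P` : a source `P` (`BP`) with unit `u`, self maps `x l` (multiplication by `x_{n+1+l}`),
  filtration and leading terms; `SrcT.src : Src p n`;
* `SrcT.sys Y : Sys S.src` : `A k = (P⟦k⟧ ⟶ Y)`, `Pi k = (𝟙⟦k⟧ ⟶ Y)`;
* `SrcT.map` : the map of systems of `f : Z⟦e⟧ ⟶ Y`;
* `IsTower` : the quotient of `P` by the `x l`, as a tower of cofibres and its telescope.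
-/

open CategoryTheory MonoidalCategory Limits Pretriangulated
open Vale.Agent.P251.T Vale.Agent.P251.M

set_option linter.unusedSectionVars false

universe u

namespace Vale.Agent.P221.T

variable {𝒯 : Type u} [Category.{0} 𝒯] [Preadditive 𝒯] [HasZeroObject 𝒯]
    [HasShift 𝒯 ℤ] [∀ n : ℤ, (shiftFunctor 𝒯 n).Additive] [Pretriangulated 𝒯] [IsTriangulated 𝒯]
    [MonoidalCategory 𝒯] [SymmetricCategory 𝒯] [TensorTriangulated 𝒯] [MonoidalClosed 𝒯]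
    [HasCoproducts.{0} 𝒯] [HasProducts.{0} 𝒯] [StableCat 𝒯]

/-- the source of the systems (`P = BP`) -/
structure SrcT (p n : ℕ) (P : 𝒯) where
  /-- the unit -/
  u : 𝟙_ 𝒯 ⟶ P
  /-- multiplication by `x_{n+1+l}` -/
  x : ∀ l, P⟦dd p n l⟧ ⟶ P
  comm : ∀ (i l : ℕ) {k : ℤ} (h : dd p n i + dd p n l = k) (h' : dd p n l + dd p n i = k),
    gc h (x l) (x i) = gc h' (x i) (x l)
  /-- the filtration of the operations -/
  F : ℤ → ∀ m : ℤ, AddSubgroup (P⟦m⟧ ⟶ P)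
  /-- leading terms -/
  θ : ℤ → ∀ m : ℤ, (P⟦m⟧ ⟶ P) → Fnl (RR p n)

variable {p n : ℕ} {P : 𝒯}

/-- the algebraic shadow of the source -/
def SrcT.src (S : SrcT p n P) : Src p n where
  E m := P⟦m⟧ ⟶ P
  x := S.x
  F := S.F
  θ := S.θ

/-- the system of an object -/
noncomputable def SrcT.sys (S : SrcT p n P) (Y : 𝒯) : Sys S.src where
  A k := P⟦k⟧ ⟶ Y
  Pi k := (𝟙_ 𝒯)⟦k⟧ ⟶ Y
  ev k :=
    { toFun := fun a => S.u⟦k⟧' ≫ a
      map_zero' := comp_zero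
      map_add' := fun _ _ => Preadditive.comp_add _ _ _ _ _ _ }
  act {k m k'} h :=
    { toFun := fun a =>
        { toFun := fun γ => gc h (Y := Y) (Q := P) γ a
          map_zero' := gc_zero_left h a
          map_add' := fun γ γ' => gc_add_left h γ γ' a }
      map_zero' := by
        ext γ
        exact gc_zero_right h γ
      map_add' := fun a b => by
        ext γ
        exact gc_add_right h γ a b }
  comm := by
    intro i l k k₁ k₂ k' h₁ h₁' h₂ h₂' a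
    change gc h₁' (S.x l) (gc h₁ (S.x i) a) = gc h₂' (S.x i) (gc h₂ (S.x l) a)
    have h3 : dd p n i + dd p n l = dd p n i + dd p n l := rfl
    rw [gc_assoc (S.x l) (S.x i) a h₁ h₁' (k₂ := dd p n i + dd p n l) rfl (by omega),
      gc_assoc (S.x i) (S.x l) a h₂ h₂' (k₂ := dd p n i + dd p n l) (by omega) (by omega),
      S.comm i l rfl (by omega)]

/-- the map of systems of `f : Z⟦e⟧ ⟶ Y` -/
noncomputable def SrcT.map (S : SrcT p n P) {Z Y : 𝒯} {e : ℤ} (f : Z⟦e⟧ ⟶ Y) :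
    SysMap (S.sys Z) (S.sys Y) e where
  f {k k'} h :=
    { toFun := fun (a : P⟦k⟧ ⟶ Z) => gc (by omega : e + k = k') a f
      map_zero' := gc_zero_left _ _
      map_add' := fun _ _ => gc_add_left _ _ _ _ }
  g {k k'} h :=
    { toFun := fun (a : (𝟙_ 𝒯)⟦k⟧ ⟶ Z) => gc (by omega : e + k = k') a f
      map_zero' := gc_zero_left _ _
      map_add' := fun _ _ => gc_add_left _ _ _ _ }
  ev {k k'} h a := comp_gc (by omega : e + k = k') S.u a f
  act {k m l k' l'} h h₁ h₂ h₃ a γ := by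
    change gc (by omega : e + l = l') (gc h γ a) f =
      gc h₂ γ (gc (by omega : e + k = k') a f)
    exact (gc_assoc γ a f (by omega) (by omega) (by omega) (by omega)).symm

/-- `q : P ⟶ C` is the quotient of `P` by the `x l`: `C` is the telescope of a sequence
`P = B 0 ⟶ B 1 ⟶ …` with distinguished triangles `(B l)⟦dd l⟧ ⟶ B l ⟶ B (l+1)` whose first map
restricts to `x l` on `P`. -/
def IsTower (S : SrcT p n P) {C : 𝒯} (q : P ⟶ C) : Prop :=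
  ∃ (B : ℕ ⥤ 𝒯) (ι : ∀ l, B.obj l ⟶ C) (e : P ≅ B.obj 0)
    (f : ∀ l, (B.obj l)⟦dd p n l⟧ ⟶ B.obj l) (δ : ∀ l, B.obj (l + 1) ⟶ ((B.obj l)⟦dd p n l⟧)⟦(1 : ℤ)⟧),
    IsTel B C ι ∧ e.hom ≫ ι 0 = q ∧
    (∀ l, Triangle.mk (f l) (B.map (homOfLE (Nat.le_succ l))) (δ l) ∈ distTriang 𝒯) ∧
    ∀ l, (e.hom ≫ B.map (homOfLE (Nat.zero_le l)))⟦dd p n l⟧' ≫ f l =
      S.x l ≫ e.hom ≫ B.map (homOfLE (Nat.zero_le l))

/-- the smallest thick subcategory containing `B` -/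
inductive Thick (B : 𝒯) : 𝒯 → Prop
  | base : Thick B B
  | zero {X : 𝒯} : IsZero X → Thick B X
  | shift (k : ℤ) {X : 𝒯} : Thick B X → Thick B (X⟦k⟧)
  | cof {X Y Z : 𝒯} {f : X ⟶ Y} {g : Y ⟶ Z} {h : Z ⟶ X⟦(1 : ℤ)⟧} :
      Triangle.mk f g h ∈ distTriang 𝒯 → Thick B X → Thick B Y → Thick B Z
  | retract {X Y : 𝒯} (i : X ⟶ Y) (r : Y ⟶ X) : i ≫ r = 𝟙 X → Thick B Y → Thick B X

variable (p n)

/-- (T1) extension over the tower: if all `Van J` (`J` an initial segment) hold for the leading terms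
of `Y`, every `a : P⟦k⟧ ⟶ Y`, `k ≥ d`, with `x_l^* a = 0` for all `l` extends along `q⟦k⟧`.
(Proof: by `SpecF1` the operators `x_l^*` map the common kernel of the `x_i^*`, `i < l`, in `A k'`,
`k' ≥ d`, onto the one in `A (k' + dd l)`. By induction on `l`, for all `k' ≥ d`, restriction to `P` is
a bijection from `(B l)⟦k'⟧ ⟶ Y` to the common kernel of the `x_i^*`, `i < l`. Telescope.) -/
def SpecT1 : Prop :=
  ∀ (P C : 𝒯) (S : SrcT p n P) (q : P ⟶ C), IsTower S q →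
    ∀ (Y : 𝒯) (N : Type) [AddCommGroup N] [Module (RR p n) N] (gr : ℤ → ℤ → AddSubgroup N) (d : ℤ)
    (_ : FS (S.sys Y) gr d), (∀ m : ℕ, Van p n {l | l < m} gr d) →
    ∀ (k : ℤ) (a : P⟦k⟧ ⟶ Y), d ≤ k → (∀ l, (S.sys Y).act rfl a (S.x l) = 0) →
      ∃ b : C⟦k⟧ ⟶ Y, q⟦k⟧' ≫ b = a

/-- (T2) the main step. `B` is the `p`-completion of the quotient `C` of `P`; `Y` is `p`-complete
and has a filtered system with graded module `gr` in degrees `≥ d`, which has a resolution of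
length `i` in the window. Then `Y` is in `Thick B` if `Y'` is, for some `p`-complete `Y'` with
`π_k Y' = 0` for `k + i ≥ d` and `π_k Y' ≅ π_{k+i} Y` for `k + i < d`.
(Proof: induction on `i`. `i = 0`: `gr = 0`, so `Y' = Y`. Step: choose `f : grFree → gr`, for each
generator an element `a_j` by `SpecF2`, extend it to `B⟦e j⟧ ⟶ Y` by `SpecT1` and completion; `Z` the
sum of the `B⟦e j⟧`, `X` the fibre of `Z ⟶ Y`; `SpecF4`, `SpecF3`, induction hypothesis for `X`.) -/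
def SpecT2 : Prop :=
  ∀ (P C B : 𝒯) (S : SrcT p n P) (q : P ⟶ C) (c : C ⟶ B) (TB : ∀ d, FS (S.sys B) (grR p n) d),
    IsTower S q → H395.PComplete p B →
    (∀ Z : 𝒯, H395.PComplete p Z → ∀ f : C ⟶ Z, ∃! g : B ⟶ Z, c ≫ g = f) →
    Approx (S.sys B) TB ((shiftFunctorZero 𝒯 ℤ).hom.app P ≫ q ≫ c) →
    (∀ (k : ℤ), k < 0 → ∀ f : (𝟙_ 𝒯)⟦k⟧ ⟶ B, f = 0) →
    (∀ l, S.x l ∈ S.F 1 _) → (∀ l, S.θ 1 _ (S.x l) = 0) →
    ∀ (i : ℕ) (Y : 𝒯) (N : Type) [AddCommGroup N] [Module (RR p n) N]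
    (gr : ℤ → ℤ → AddSubgroup N) (d : ℤ), IsGr p n gr → QQ p n d i N gr →
    Nonempty (FS (S.sys Y) gr d) → H395.PComplete p Y →
    ∃ Y' : 𝒯, (Thick B Y' → Thick B Y) ∧ H395.PComplete p Y' ∧
      (∀ k, d ≤ k + i → ∀ f : (𝟙_ 𝒯)⟦k⟧ ⟶ Y', f = 0) ∧
      (∀ k, k + i < d → Nonempty (((𝟙_ 𝒯)⟦k⟧ ⟶ Y') ≃+ ((𝟙_ 𝒯)⟦k + i⟧ ⟶ Y)))

end Vale.Agent.P221.T
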