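import Vale.Agent.P221.T.BPS
import Vale.Agent.P221.T.H520.Lifts

/-!
# P221, part T: definitions for `SpecSrc` (frozen)

For `b : BPS p R P W`:

* `b.cext`, `b.cextR`, `b.wext` : extensions of maps to `p`-complete objects along
  `c⟦k⟧ : R⟦k⟧ ⟶ P⟦k⟧`, `(R ◁ c)⟦k⟧ : (R ⊗ R)⟦k⟧ ⟶ (R ⊗ P)⟦k⟧`, `w⟦k⟧ : (R ⊗ R)⟦k⟧ ⟶ W⟦k⟧`;
* `b.w' : R ⊗ P ⟶ W`, `b.aug : W ⟶ P`;
* `b.til M hY a : W⟦k⟧ ⟶ Y` for `a : P⟦k⟧ ⟶ Y`; `b.Wm γ : W⟦m⟧ ⟶ W` for `γ : P⟦m⟧ ⟶ P`;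
* `b.ω : GG p →+ PiM W`.
-/

open CategoryTheory MonoidalCategory MonObj Limits Pretriangulated
open MvPolynomial (C coeff monomial)
open Vale.Agent.P251.T Vale.Agent.P251.M Vale.Agent.P251.S

set_option linter.unusedSectionVars false

universe u

namespace Vale.Agent.P221.T

variable {𝒯 : Type u} [Category.{0} 𝒯] [Preadditive 𝒯] [HasZeroObject 𝒯]
    [HasShift 𝒯 ℤ] [∀ n : ℤ, (shiftFunctor 𝒯 n).Additive] [Pretriangulated 𝒯] [IsTriangulated 𝒯]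
    [MonoidalCategory 𝒯] [SymmetricCategory 𝒯] [TensorTriangulated 𝒯] [MonoidalClosed 𝒯]
    [HasCoproducts.{0} 𝒯] [HasProducts.{0} 𝒯] [StableCat 𝒯]

namespace BPS

variable {p : ℕ} [Fact p.Prime] {R P W : 𝒯} [MonObj R] [IsCommMonObj R] (b : BPS p R P W)

/-- transport of bijectivity along isomorphisms of the sources -/
theorem bij_of_iso {A A' B B' Z : 𝒯} {f : A ⟶ B} {f' : A' ⟶ B'} (i : A ≅ A') (j : B ≅ B')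
    (h : f ≫ j.hom = i.hom ≫ f') (hf : Function.Bijective fun g : B ⟶ Z => f ≫ g) :
    Function.Bijective fun g : B' ⟶ Z => f' ≫ g := by
  have h' : f' = i.inv ≫ f ≫ j.hom := by rw [h, Iso.inv_hom_id_assoc]
  constructor
  · intro g g' hg
    change f' ≫ g = f' ≫ g' at hg
    rw [h', Category.assoc, Category.assoc, Category.assoc, Category.assoc, cancel_epi] at hg
    exact (cancel_epi j.hom).1 (hf.1 hg)
  · intro g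
    obtain ⟨u, hu⟩ := hf.2 (i.hom ≫ g)
    refine ⟨j.inv ≫ u, ?_⟩
    change f ≫ u = _ at hu
    change f' ≫ _ = _
    rw [h', Category.assoc, Category.assoc, Iso.hom_inv_id_assoc, hu, Iso.inv_hom_id_assoc]

theorem c_bij' (Z : 𝒯) (hZ : H395.PComplete p Z) (k : ℤ) :
    Function.Bijective fun g : P⟦k⟧ ⟶ Z => b.c⟦k⟧' ≫ g :=
  bij_of_iso ((shiftFunctor 𝒯 k).mapIso (λ_ R)) ((shiftFunctor 𝒯 k).mapIso (λ_ P))
    (by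
      change (𝟙_ 𝒯 ◁ b.c)⟦k⟧' ≫ ((λ_ P).hom)⟦k⟧' = ((λ_ R).hom)⟦k⟧' ≫ b.c⟦k⟧'
      rw [← Functor.map_comp, ← Functor.map_comp, leftUnitor_naturality]) (b.c_bij (𝟙_ 𝒯) Z hZ k)

theorem w_bij' (Z : 𝒯) (hZ : H395.PComplete p Z) (k : ℤ) :
    Function.Bijective fun g : W⟦k⟧ ⟶ Z => b.w⟦k⟧' ≫ g :=
  bij_of_iso ((shiftFunctor 𝒯 k).mapIso (λ_ (R ⊗ R))) ((shiftFunctor 𝒯 k).mapIso (λ_ W))
    (by
      change (𝟙_ 𝒯 ◁ b.w)⟦k⟧' ≫ ((λ_ W).hom)⟦k⟧' = ((λ_ (R ⊗ R)).hom)⟦k⟧' ≫ b.w⟦k⟧'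
      rw [← Functor.map_comp, ← Functor.map_comp, leftUnitor_naturality]) (b.w_bij (𝟙_ 𝒯) Z hZ k)

theorem bij_unshift {A B Z : 𝒯} (f : A ⟶ B)
    (hf : Function.Bijective fun g : B⟦(0 : ℤ)⟧ ⟶ Z => f⟦(0 : ℤ)⟧' ≫ g) :
    Function.Bijective fun g : B ⟶ Z => f ≫ g :=
  bij_of_iso ((shiftFunctorZero 𝒯 ℤ).app A) ((shiftFunctorZero 𝒯 ℤ).app B)
    ((shiftFunctorZero 𝒯 ℤ).hom.naturality f) hf

theorem c_bij0 (A Z : 𝒯) (hZ : H395.PComplete p Z) :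
    Function.Bijective fun g : A ⊗ P ⟶ Z => (A ◁ b.c) ≫ g := bij_unshift _ (b.c_bij A Z hZ 0)

theorem c_bij0' (Z : 𝒯) (hZ : H395.PComplete p Z) :
    Function.Bijective fun g : P ⟶ Z => b.c ≫ g := bij_unshift _ (b.c_bij' Z hZ 0)

theorem w_bij0' (Z : 𝒯) (hZ : H395.PComplete p Z) :
    Function.Bijective fun g : W ⟶ Z => b.w ≫ g := bij_unshift _ (b.w_bij' Z hZ 0)

/-- extension along `c⟦k⟧ : R⟦k⟧ ⟶ P⟦k⟧` -/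
noncomputable def cext {Z : 𝒯} (hZ : H395.PComplete p Z) {k : ℤ} (g : R⟦k⟧ ⟶ Z) : P⟦k⟧ ⟶ Z :=
  ((b.c_bij' Z hZ k).2 g).choose

theorem c_cext {Z : 𝒯} (hZ : H395.PComplete p Z) {k : ℤ} (g : R⟦k⟧ ⟶ Z) :
    b.c⟦k⟧' ≫ b.cext hZ g = g := ((b.c_bij' Z hZ k).2 g).choose_spec

theorem cext_unique {Z : 𝒯} (hZ : H395.PComplete p Z) {k : ℤ} {f g : P⟦k⟧ ⟶ Z}
    (h : b.c⟦k⟧' ≫ f = b.c⟦k⟧' ≫ g) : f = g := (b.c_bij' Z hZ k).1 h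

theorem cextA_unique {A Z : 𝒯} (hZ : H395.PComplete p Z) {k : ℤ} {f g : (A ⊗ P)⟦k⟧ ⟶ Z}
    (h : (A ◁ b.c)⟦k⟧' ≫ f = (A ◁ b.c)⟦k⟧' ≫ g) : f = g := (b.c_bij A Z hZ k).1 h

/-- extension along `w⟦k⟧ : (R ⊗ R)⟦k⟧ ⟶ W⟦k⟧` -/
noncomputable def wext {Z : 𝒯} (hZ : H395.PComplete p Z) {k : ℤ} (g : (R ⊗ R)⟦k⟧ ⟶ Z) :
    W⟦k⟧ ⟶ Z := ((b.w_bij' Z hZ k).2 g).choose

theorem w_wext {Z : 𝒯} (hZ : H395.PComplete p Z) {k : ℤ} (g : (R ⊗ R)⟦k⟧ ⟶ Z) :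
    b.w⟦k⟧' ≫ b.wext hZ g = g := ((b.w_bij' Z hZ k).2 g).choose_spec

theorem wext_unique {Z : 𝒯} (hZ : H395.PComplete p Z) {k : ℤ} {f g : W⟦k⟧ ⟶ Z}
    (h : b.w⟦k⟧' ≫ f = b.w⟦k⟧' ≫ g) : f = g := (b.w_bij' Z hZ k).1 h

/-- the extension `R ⊗ P ⟶ W` of `w` -/
noncomputable def w' : R ⊗ P ⟶ W := ((b.c_bij0 R W b.cW).2 b.w).choose

theorem c_w' : (R ◁ b.c) ≫ b.w' = b.w := ((b.c_bij0 R W b.cW).2 b.w).choose_spec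

/-- the augmentation: the extension `W ⟶ P` of `μ ≫ c` -/
noncomputable def aug : W ⟶ P := ((b.w_bij0' P b.cP).2 (μ[R] ≫ b.c)).choose

theorem w_aug : b.w ≫ b.aug = μ[R] ≫ b.c := ((b.w_bij0' P b.cP).2 (μ[R] ≫ b.c)).choose_spec

/-- the `R`-linear extension `W⟦k⟧ ⟶ Y` of `a : P⟦k⟧ ⟶ Y` -/
noncomputable def til {Y : 𝒯} (M : ModStr R Y) (hY : H395.PComplete p Y) {k : ℤ}
    (a : P⟦k⟧ ⟶ Y) : W⟦k⟧ ⟶ Y := b.wext hY (ext M (b.c⟦k⟧' ≫ a))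

theorem w_til {Y : 𝒯} (M : ModStr R Y) (hY : H395.PComplete p Y) {k : ℤ} (a : P⟦k⟧ ⟶ Y) :
    b.w⟦k⟧' ≫ b.til M hY a = ext M (b.c⟦k⟧' ≫ a) := b.w_wext hY _

theorem w'_til {Y : 𝒯} (M : ModStr R Y) (hY : H395.PComplete p Y) {k : ℤ} (a : P⟦k⟧ ⟶ Y) :
    b.w'⟦k⟧' ≫ b.til M hY a = ext M a := by
  apply b.cextA_unique hY
  rw [← Functor.map_comp_assoc, c_w', w_til, shift_ext]

/-- `R ⊗ γ`, completed -/
noncomputable def Wm {m : ℤ} (γ : P⟦m⟧ ⟶ P) : W⟦m⟧ ⟶ W :=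
  b.wext b.cW ((R ◁ b.c)⟦m⟧' ≫ fm (tensorLeft R) γ ≫ b.w')

theorem w_Wm {m : ℤ} (γ : P⟦m⟧ ⟶ P) :
    b.w⟦m⟧' ≫ b.Wm γ = (R ◁ b.c)⟦m⟧' ≫ fm (tensorLeft R) γ ≫ b.w' := b.w_wext b.cW _

theorem w'_Wm {m : ℤ} (γ : P⟦m⟧ ⟶ P) : b.w'⟦m⟧' ≫ b.Wm γ = fm (tensorLeft R) γ ≫ b.w' := by
  apply b.cextA_unique b.cW
  rw [← Functor.map_comp_assoc, c_w', w_Wm]

/-- functoriality: `til (gc γ a) = gc (Wm γ) (til a)` -/
theorem til_gc {Y : 𝒯} (M : ModStr R Y) (hY : H395.PComplete p Y) {m k k' : ℤ} (h : k + m = k')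
    (γ : P⟦m⟧ ⟶ P) (a : P⟦k⟧ ⟶ Y) : b.til M hY (gc h γ a) = gc h (b.Wm γ) (b.til M hY a) := by
  apply b.wext_unique hY
  rw [w_til, comp_gc h b.c γ a, comp_gc h b.w (b.Wm γ) (b.til M hY a), w_Wm, ext_gc, shift_fm,
    ← Category.assoc, gc_map _ _ b.w', w'_til]
  rfl

theorem Wm_gc {m k k' : ℤ} (h : k + m = k') (γ : P⟦m⟧ ⟶ P) (a : P⟦k⟧ ⟶ P) :
    b.Wm (gc h γ a) = gc h (b.Wm γ) (b.Wm a) := by
  apply b.wext_unique b.cW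
  rw [w_Wm, comp_gc h b.w (b.Wm γ) (b.Wm a), w_Wm, fm_gc, ← Category.assoc ((R ◁ b.c)⟦m⟧'),
    gc_map _ _ b.w', w'_Wm, ← gc_comp]
  exact comp_gc h (R ◁ b.c) _ _

theorem til_add {Y : 𝒯} (M : ModStr R Y) (hY : H395.PComplete p Y) {k : ℤ}
    (a a' : P⟦k⟧ ⟶ Y) : b.til M hY (a + a') = b.til M hY a + b.til M hY a' := by
  apply b.wext_unique hY
  rw [Preadditive.comp_add, w_til, w_til, w_til, Preadditive.comp_add, ext_add]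

theorem Wm_add {m : ℤ} (γ γ' : P⟦m⟧ ⟶ P) : b.Wm (γ + γ') = b.Wm γ + b.Wm γ' := by
  apply b.wext_unique b.cW
  rw [Preadditive.comp_add, w_Wm, w_Wm, w_Wm, fm_add, Preadditive.add_comp, Preadditive.comp_add]

/-- the homotopy of a `p`-complete `R`-module as a `KK p`-module -/
@[reducible] noncomputable def mdl {Y : 𝒯} (M : ModStr R Y) (hY : H395.PComplete p Y) :
    Module (KK p) (PiM Y) := Module.compHom (PiM Y) (b.kk M hY)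

/-- `f t^E ↦ f • (τ E ≫ w)` -/
noncomputable def ω : letI := b.mdl b.MW b.cW; GG p →ₗ[KK p] PiM W :=
  letI := b.mdl b.MW b.cW
  (MvPolynomial.basisMonomials ℕ (KK p)).constr (KK p)
    fun E => PiM.of W (dT p E) (b.τ E ≫ b.w)

theorem ω_monomial (E : ℕ →₀ ℕ) : b.ω (monomial E 1) = PiM.of W (dT p E) (b.τ E ≫ b.w) := by
  letI := b.mdl b.MW b.cW
  have h := (MvPolynomial.basisMonomials ℕ (KK p)).constr_basis (KK p)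
    (fun E => PiM.of W (dT p E) (b.τ E ≫ b.w)) E
  rw [MvPolynomial.coe_basisMonomials] at h
  exact h

theorem ω_apply (g : GG p) : b.ω g =
    ∑ E ∈ g.support, b.kk b.MW b.cW (coeff E g) (PiM.of W (dT p E) (b.τ E ≫ b.w)) := by
  letI := b.mdl b.MW b.cW
  conv_lhs => rw [← MvPolynomial.support_sum_monomial_coeff g, map_sum]
  refine Finset.sum_congr rfl fun E _ => ?_
  have h : monomial E (coeff E g) = (coeff E g) • (monomial E 1 : GG p) := by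
    rw [MvPolynomial.smul_monomial, smul_eq_mul, _root_.mul_one]
  rw [h, map_smul, ω_monomial]
  rfl

open Classical in
/-- the action of an operation on `GG p = π_* W` (see `SpecA1`) -/
noncomputable def T {m : ℤ} (γ : P⟦m⟧ ⟶ P) : GG p →ₗ[KK p] GG p :=
  if h : ∃ f : GG p →ₗ[KK p] GG p, ∀ z, b.ω (f z) = PiM.map (b.Wm γ) (b.ω z) then h.choose else 0

/-- the right unit `η_R`, `X i ↦ ηR i` -/
noncomputable def eta : KK p →+* GG p :=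
  MvPolynomial.eval₂Hom (MvPolynomial.C.comp MvPolynomial.C) b.ηR

/-- the unit of `π_0 P` -/
noncomputable def unit : PiM P := PiM.of P 0 (zr 𝒯 ≫ η[R] ≫ b.c)

/-- (SA1) the action of the operations on `π_* W` -/
structure SpecA1 : Prop where
  til_lin : ∀ {Y : 𝒯} (M : ModStr R Y) (hY : H395.PComplete p Y) {k : ℤ} (a : P⟦k⟧ ⟶ Y),
    IsLin b.MW M (b.til M hY a)
  Wm_lin : ∀ {m : ℤ} (γ : P⟦m⟧ ⟶ P), IsLin b.MW b.MW (b.Wm γ)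
  ω_bij : Function.Bijective b.ω
  ω_mem : ∀ (k : ℤ) (g : GG p), (∀ E, HK p (k - dT p E) (coeff E g)) ↔ b.ω g ∈ PiM.gr W k
  ω_T : ∀ {m : ℤ} (γ : P⟦m⟧ ⟶ P) (z : GG p), b.ω (b.T γ z) = PiM.map (b.Wm γ) (b.ω z)
  T_add : ∀ {m : ℤ} (γ γ' : P⟦m⟧ ⟶ P), b.T (γ + γ') = b.T γ + b.T γ'
  T_gc : ∀ {m k k' : ℤ} (h : k + m = k') (γ : P⟦m⟧ ⟶ P) (a : P⟦k⟧ ⟶ P),
    b.T (gc h γ a) = b.T a ∘ₗ b.T γ
  T_homog : ∀ {m : ℤ} (γ : P⟦m⟧ ⟶ P) (E E' : ℕ →₀ ℕ),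
    HK p (m + dT p E - dT p E') (coeff E' (b.T γ (monomial E 1)))

/-- (SA2) coordinates: for `a : P⟦k⟧ ⟶ Y` the map `PiM.map (til a) ∘ ω : GG p ⟶ ⨁ π_k Y` has all the
properties of `Coor`. -/
def SpecA2 : Prop :=
  ∀ {n : ℕ} (ld : Lead p n) (S : SrcT p n P) (O : OpAlg ld S.src), S.u = η[R] ≫ b.c →
    (∀ (m : ℤ) (γ : P⟦m⟧ ⟶ P), O.T m γ = b.T γ) → ∀ (Y : 𝒯) (M : ModStr R Y)
    (hY : H395.PComplete p Y), letI := b.mdl M hY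
    ∃ co : Coor O (S.sys Y) (PiM Y) (PiM.gr Y), (∀ k, co.e k = PiM.of Y k) ∧
      (∀ (k : ℤ) (a : P⟦k⟧ ⟶ Y) (z : GG p), co.c k a z = PiM.map (b.til M hY a) (b.ω z)) ∧
      ∀ (k : ℤ) (a : P⟦k⟧ ⟶ Y) (E : ℕ →₀ ℕ),
        co.c k a (monomial E 1) = PiM.of Y (k + dT p E) (gc rfl (b.τ E) (ext M (b.c⟦k⟧' ≫ a)))

/-- the multiplication of degree `k` with a homogeneous `f ∈ ℤ_p[v]` on `P` -/
noncomputable def mult (k : ℤ) (f : KK p) : P⟦k⟧ ⟶ P := b.cext b.cP (hat b.MP (b.cls k f))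

/-- (SB1) multiplications -/
structure SpecB1 : Prop where
  /-- `T (mult f)` is the multiplication with `η_R f` -/
  T_mult : ∀ (k : ℤ) (f : KK p), HK p k f → ∀ z, b.T (b.mult k f) z = b.eta f * z
  comm : ∀ (k l m : ℤ) (f g : KK p), HK p k f → HK p l g → ∀ (h : k + l = m) (h' : l + k = m),
    gc h (b.mult l g) (b.mult k f) = gc h' (b.mult k f) (b.mult l g)
  eta_II : ∀ (t : ℕ) (f : KK p), f ∈ II p ^ t → ∀ E, coeff E (b.eta f) ∈ II p ^ t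
  /-- for `f = v_{k+1}` modulo `(p, v_1, …)²` -/
  eta_mod : ∀ (i : ℕ) (f : KK p), f - MvPolynomial.X i ∈ II p ^ 2 → ∀ E,
    coeff E (b.eta f - ∑ a ∈ Finset.range (i + 2), C (vK p a) * tG p (i + 1 - a) ^ p ^ a) ∈
      II p ^ 2

/-- (SB2) coordinates of operations -/
structure SpecB2 : Prop where
  /-- the augmentation: the coordinates of `γ` in `π_* P = KK p` are `coeff 0 (T γ t^E)` -/
  T_zero : ∀ {m : ℤ} (γ : P⟦m⟧ ⟶ P) (z : GG p),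
    PiM.map (b.til b.MP b.cP γ) (b.ω z) = b.kk b.MP b.cP (coeff 0 (b.T γ z)) b.unit
  eta_zero : ∀ f : KK p, coeff 0 (b.eta f) = f
  /-- operations with prescribed coordinates -/
  exists_T : ∀ (m : ℤ) (c : (ℕ →₀ ℕ) → KK p), (∀ E, HK p (m + dT p E) (c E)) →
    ∃ γ : P⟦m⟧ ⟶ P, ∀ E, coeff 0 (b.T γ (monomial E 1)) = c E
  /-- with coordinates in `(p, v_1, …, v_n)^t` -/
  appr : ∀ (n : ℕ) (m : ℤ) (t : ℤ) (c : (ℕ →₀ ℕ) → MvPolynomial (Fin n) ℤ_[p]),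
    (∀ E, HK p (m + dT p E) (MvPolynomial.rename (fun i : Fin n => (i : ℕ)) (c E))) →
    (∀ E, MvPolynomial.rename (fun i : Fin n => (i : ℕ)) (c E) ∈ Ip p t) →
    ∃ γ : P⟦m⟧ ⟶ P, (∀ E E', coeff E' (b.T γ (monomial E 1)) ∈ Ip p t) ∧
      ∀ E, coeff 0 (b.T γ (monomial E 1)) =
        MvPolynomial.rename (fun i : Fin n => (i : ℕ)) (c E)

end BPS

end Vale.Agent.P221.T
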