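import Vale.Agent.P221.T.Filt
import Mathlib.NumberTheory.Padics.RingHoms
import Mathlib.Algebra.MvPolynomial.Basic

/-!
# P221, part T: coordinates of `[Σ^k BP, Y]` (frozen interface)

* `KK p = ℤ_p[v_1, v_2, …]`, `X i = v_{i+1}` of degree `sV p (i+1)`; `GG p = KK p [t_1, t_2, …]`,
  `X j = t_{j+1}`; `II p` the ideal `(p, v_1, v_2, …)`;
* `Lead` : leading terms `I^t → 𝔽_p[v_0, …, v_n]`;
* `OpAlg S` : the operations `γ` act on `GG p = BP_* BP` by `KK p`-linear maps `T γ`; `T (x l)` is the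
  multiplication by `η_R(x_{n+1+l})`;
* `Coor Y M Mg` : `Y.A k` is the group of `KK p`-linear maps `GG p ⟶ M` of degree `k`; this holds for
  homotopy `BP`-modules, `M = π_* Y`;
* `SpecS` : coordinates and finite generation of `M` over `ℤ_p[v_1, …, v_n]` give a filtered system
  (`SpecSB` : the standard form itself).
-/

open MvPolynomial

namespace Vale.Agent.P221.T

variable (p : ℕ) [Fact p.Prime]

/-- `ℤ_p[v_1, v_2, …]` -/
abbrev KK : Type := MvPolynomial ℕ ℤ_[p]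

/-- `ℤ_p[v_1, v_2, …][t_1, t_2, …]` -/
abbrev GG : Type := MvPolynomial ℕ (KK p)

/-- the ideal `(p, v_1, v_2, …)` -/
noncomputable def II : Ideal (KK p) := Ideal.span (insert (p : KK p) (Set.range X))

/-- powers with integral exponents -/
noncomputable def Ip (t : ℤ) : Ideal (KK p) := II p ^ t.toNat

/-- homogeneous elements of degree `k` of `KK p` -/
def HK (k : ℤ) (f : KK p) : Prop := IsWeightedHomogeneous (fun i => sV p (i + 1)) f k

/-- `v_0 = p, v_1, v_2, …` -/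
noncomputable def vK : ℕ → KK p
  | 0 => (p : KK p)
  | i + 1 => X i

/-- `t_0 = 1, t_1, t_2, …` -/
noncomputable def tG : ℕ → GG p
  | 0 => 1
  | i + 1 => X i

/-- leading terms, modulo `v_j`, `j > n` -/
structure Lead (n : ℕ) where
  /-- the leading term -/
  L : ℤ → KK p → RR p n
  add : ∀ {t : ℤ} {f g : KK p}, f ∈ Ip p t → g ∈ Ip p t → L t (f + g) = L t f + L t g
  mul : ∀ {t s : ℤ} {f g : KK p}, 0 ≤ t → 0 ≤ s → f ∈ Ip p t → g ∈ Ip p s →
    L (t + s) (f * g) = L t f * L s g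
  zero : ∀ {t : ℤ} {f : KK p}, 0 ≤ t → f ∈ Ip p (t + 1) → L t f = 0
  neg : ∀ {t : ℤ} (f : KK p), t < 0 → L t f = 0
  const : ∀ c : ℤ_[p], L 0 (C c) = C (PadicInt.toZMod c)
  p_eq : L 1 (p : KK p) = X 0
  v_lt : ∀ (i : ℕ) (h : i < n), L 1 (X i) = X ⟨i + 1, by omega⟩
  v_ge : ∀ i, n ≤ i → L 1 (X i) = 0
  homog : ∀ {t k : ℤ} {f : KK p}, 0 ≤ t → f ∈ Ip p t → HK p k f → L t f ∈ grR p n k t
  /-- every homogeneous element is the leading term of a polynomial in `v_1, …, v_n` -/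
  surj : ∀ {t k : ℤ} {g : RR p n}, 0 ≤ t → g ∈ grR p n k t → ∃ f : MvPolynomial (Fin n) ℤ_[p],
    rename (fun i : Fin n => (i : ℕ)) f ∈ Ip p t ∧ HK p k (rename (fun i : Fin n => (i : ℕ)) f) ∧
      L t (rename (fun i : Fin n => (i : ℕ)) f) = g
  /-- the leading term detects the filtration on polynomials in `v_1, …, v_n` -/
  inj : ∀ {t : ℤ} {f : MvPolynomial (Fin n) ℤ_[p]}, 0 ≤ t →
    rename (fun i : Fin n => (i : ℕ)) f ∈ Ip p t → L t (rename (fun i : Fin n => (i : ℕ)) f) = 0 →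
    rename (fun i : Fin n => (i : ℕ)) f ∈ Ip p (t + 1)

/-- leaf: leading terms exist -/
def SpecLead (n : ℕ) : Prop := Nonempty (Lead p n)

variable {p} {n : ℕ}

/-- the operations of `BP` on `BP_* BP = GG p` -/
structure OpAlg (ld : Lead p n) (S : Src p n) where
  /-- the action of an operation on `BP_* BP`, linear over the left unit -/
  T : ∀ m, S.E m →+ (GG p →ₗ[KK p] GG p)
  /-- `T γ` raises the degree by `m` -/
  homog : ∀ (m : ℤ) (γ : S.E m) (E E' : ℕ →₀ ℕ),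
    HK p (m + dT p E - dT p E') (coeff E' (T m γ (monomial E 1)))
  /-- the filtration -/
  F_iff : ∀ (t m : ℤ) (γ : S.E m),
    γ ∈ S.F t m ↔ ∀ E E', coeff E' (T m γ (monomial E 1)) ∈ Ip p t
  θ_eq : ∀ (t m : ℤ) (γ : S.E m) (E : ℕ →₀ ℕ), γ ∈ S.F t m →
    S.θ t m γ E = ld.L t (coeff 0 (T m γ (monomial E 1)))
  /-- `η_R(x_{n+1+l})` -/
  η : ℕ → GG p
  T_x : ∀ l z, T _ (S.x l) z = η l * z
  η_mem : ∀ l E, coeff E (η l - ∑ a ∈ Finset.range (n + 2 + l),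
    C (vK p a) * tG p (n + 1 + l - a) ^ p ^ a) ∈ II p ^ 2
  /-- operations with prescribed coordinates in `ℤ_p[v_1, …, v_n]` exist up to multiples of `p ^ M` -/
  appr : ∀ (m : ℤ) (t : ℤ) (M : ℕ) (c : (ℕ →₀ ℕ) → MvPolynomial (Fin n) ℤ_[p]),
    (∀ E, HK p (m + dT p E) (rename (fun i : Fin n => (i : ℕ)) (c E))) →
    (∀ E, rename (fun i : Fin n => (i : ℕ)) (c E) ∈ Ip p t) →
    ∃ γ : S.E m, γ ∈ S.F t m ∧ ∀ E, ∃ f, coeff 0 (T m γ (monomial E 1)) =
      rename (fun i : Fin n => (i : ℕ)) (c E) + (p : KK p) ^ M * f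

theorem OpAlg.T_mem {ld : Lead p n} {S : Src p n} (O : OpAlg ld S) (t m : ℤ) (γ : S.E m)
    (h : γ ∈ S.F t m) (E E' : ℕ →₀ ℕ) : coeff E' (O.T m γ (monomial E 1)) ∈ Ip p t :=
  (O.F_iff t m γ).1 h E E'

/-- coordinates: `Y.A k` is the group of linear maps `GG p ⟶ M` of degree `k`, `M = π_* Y` -/
structure Coor {ld : Lead p n} {S : Src p n} (O : OpAlg ld S) (Y : Sys S) (M : Type)
    [AddCommGroup M] [Module (KK p) M] (Mg : ℤ → AddSubgroup M) where
  /-- homogeneous elements -/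
  smul_mem : ∀ {k m : ℤ} {f : KK p} {y : M}, HK p m f → y ∈ Mg k → f • y ∈ Mg (k + m)
  /-- the sum of the `Mg k` is direct -/
  indep : ∀ (s : Finset ℤ) (y : ℤ → M), (∀ k ∈ s, y k ∈ Mg k) → ∑ k ∈ s, y k = 0 →
    ∀ k ∈ s, y k = 0
  /-- the coordinates -/
  c : ∀ k, Y.A k →+ (GG p →ₗ[KK p] M)
  inj : ∀ k, Function.Injective (c k)
  range : ∀ (k : ℤ) (ζ : GG p →ₗ[KK p] M), (∃ a, c k a = ζ) ↔ ∀ E, ζ (monomial E 1) ∈ Mg (k + dT p E)
  act : ∀ {k m k' : ℤ} (h : k + m = k') (a : Y.A k) (γ : S.E m),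
    c k' (Y.act h a γ) = c k a ∘ₗ O.T m γ
  /-- the homotopy groups -/
  e : ∀ k, Y.Pi k →+ M
  e_inj : ∀ k, Function.Injective (e k)
  e_range : ∀ k y, (∃ a, e k a = y) ↔ y ∈ Mg k
  ev : ∀ (k : ℤ) (a : Y.A k), e k (Y.ev k a) = c k a 1

variable (p n)

/-- leaf (T-S): the slope filtration. `M` is generated over `ℤ_p[v_1, …, v_n]` by finitely many
homogeneous elements. (The generator `y_i` gets the filtration `⌊e_i / sV p n⌋`, so that `p` and
`v_1, …, v_n` raise the filtration by one and `v_j`, `j > n`, by at least two; for `n = 0` the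
filtration of `y_i` is `e_i`.) -/
def SpecS : Prop :=
  ∀ (ld : Lead p n) (S : Src p n) (O : OpAlg ld S) (Y : Sys S) (M : Type) [AddCommGroup M]
    [Module (KK p) M] (Mg : ℤ → AddSubgroup M), Coor O Y M Mg →
    (∃ (r : ℕ) (e : Fin r → ℤ) (y : Fin r → M), (∀ i, y i ∈ Mg (e i)) ∧
      ∀ k, ∀ z ∈ Mg k, ∃ f : Fin r → MvPolynomial (Fin n) ℤ_[p],
        (∀ i, HK p (k - e i) (rename (fun i : Fin n => (i : ℕ)) (f i))) ∧
          z = ∑ i, rename (fun i : Fin n => (i : ℕ)) (f i) • y i) →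
    ∃ (N : Type) (_ : AddCommGroup N) (_ : Module (RR p n) N) (gr : ℤ → ℤ → AddSubgroup N),
      IsGr p n gr ∧ FG (p := p) (n := n) gr ∧ ∀ d, Nonempty (FS Y gr d)

/-- leaf (T-SB): the standard form. `M` is free over `ℤ_p[v_1, …, v_n]` on `y ∈ Mg 0`. -/
def SpecSB : Prop :=
  ∀ (ld : Lead p n) (S : Src p n) (O : OpAlg ld S) (Y : Sys S) (M : Type) [AddCommGroup M]
    [Module (KK p) M] (Mg : ℤ → AddSubgroup M) (co : Coor O Y M Mg) (y : M), y ∈ Mg 0 →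
    (∀ k, ∀ z ∈ Mg k, ∃! f : MvPolynomial (Fin n) ℤ_[p],
      HK p k (rename (fun i : Fin n => (i : ℕ)) f) ∧ z = rename (fun i : Fin n => (i : ℕ)) f • y) →
    ∀ g : Y.A 0, (∀ E, co.c 0 g (monomial E 1) = if E = 0 then y else 0) →
    ∃ T : ∀ d, FS Y (grR p n) d, Approx Y T g

end Vale.Agent.P221.T
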