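import Vale.Agent.P221.T.Ext
import Vale.Agent.P221.T.Coor
import Vale.Agent.P221.H395.Comp3
import Mathlib.Algebra.DirectSum.Module

/-!
# P221, part T: the source of the systems, `P` = the `p`-complete Brown-Peterson spectrum
(frozen interface)

* `PiM Y = ⨁_k π_k Y`, all integers `k`; `PiM.map f` for `f : Y⟦j⟧ ⟶ Z`;
* `BPS p R P W` : the facts on the Brown-Peterson monoid `R` (`P` and `W` are the `p`-completions of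
  `R` and `R ⊗ R`) from which part T constructs the source and the coordinates;
* `SpecSrc` : source, operations, coordinates.
-/

open CategoryTheory MonoidalCategory MonObj Limits Pretriangulated
open MvPolynomial (C coeff monomial)
open Vale.Agent.P251.T Vale.Agent.P251.M Vale.Agent.P251.S

set_option linter.unusedSectionVars false

universe u

namespace Vale.Agent.P221.T

variable {𝒯 : Type u} [Category.{0} 𝒯] [Preadditive 𝒯] [HasZeroObject 𝒯]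
    [HasShift 𝒯 ℤ] [∀ n : ℤ, (shiftFunctor 𝒯 n).Additive] [Pretriangulated 𝒯] [IsTriangulated 𝒯]
    [MonoidalCategory 𝒯] [SymmetricCategory 𝒯] [TensorTriangulated 𝒯] [MonoidalClosed 𝒯]
    [HasCoproducts.{0} 𝒯] [HasProducts.{0} 𝒯] [StableCat 𝒯]

/-- `⨁_k π_k Y` -/
abbrev PiM (Y : 𝒯) : Type := DirectSum ℤ fun k => ((𝟙_ 𝒯)⟦k⟧ ⟶ Y)

/-- the homogeneous element of `⨁_k π_k Y` given by `y ∈ π_k Y` -/
noncomputable abbrev PiM.of (Y : 𝒯) (k : ℤ) : ((𝟙_ 𝒯)⟦k⟧ ⟶ Y) →+ PiM Y :=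
  DirectSum.of (fun k => ((𝟙_ 𝒯)⟦k⟧ ⟶ Y)) k

/-- the map induced by `f : Y⟦j⟧ ⟶ Z` -/
noncomputable def PiM.map {Y Z : 𝒯} {j : ℤ} (f : Y⟦j⟧ ⟶ Z) : PiM Y →+ PiM Z :=
  DirectSum.toAddMonoid fun k => (PiM.of Z (j + k)).comp
    { toFun := fun y => gc (rfl : j + k = j + k) y f
      map_zero' := gc_zero_left _ _
      map_add' := fun _ _ => gc_add_left _ _ _ _ }

/-- the unit `𝟙⟦0⟧ ⟶ 𝟙` -/
noncomputable abbrev zr (𝒯 : Type u) [Category.{0} 𝒯] [HasShift 𝒯 ℤ] [MonoidalCategory 𝒯] :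
    (𝟙_ 𝒯)⟦(0 : ℤ)⟧ ⟶ 𝟙_ 𝒯 := (shiftFunctorZero 𝒯 ℤ).hom.app (𝟙_ 𝒯)

/-- right multiplication with `v ∈ π_m R`, on `R` -/
noncomputable def rmul {R : 𝒯} [MonObj R] {m : ℤ} (v : (𝟙_ 𝒯)⟦m⟧ ⟶ R) : R⟦m⟧ ⟶ R :=
  ((ρ_ R).inv)⟦m⟧' ≫ fm (tensorLeft R) v ≫ μ[R]

/-- The `p`-complete homotopy modules over the Brown-Peterson monoid `R` (`P`, `W` : the
`p`-completions of `R` and `R ⊗ R`). -/
structure BPS (p : ℕ) [Fact p.Prime] (R P W : 𝒯) [MonObj R] [IsCommMonObj R] where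
  /-- the module structures -/
  MP : ModStr R P
  /-- the module structures -/
  MW : ModStr R W
  cP : H395.PComplete p P
  cW : H395.PComplete p W
  /-- the completion maps -/
  c : R ⟶ P
  /-- the completion maps -/
  w : R ⊗ R ⟶ W
  c_lin : μ[R] ≫ c = (R ◁ c) ≫ MP.act
  w_lin : (ModStr.free R R).IsLinear MW w
  /-- maps to `p`-complete objects extend uniquely to the completion -/
  c_bij : ∀ (A Z : 𝒯), H395.PComplete p Z → ∀ (k : ℤ),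
    Function.Bijective fun g : (A ⊗ P)⟦k⟧ ⟶ Z => (A ◁ c)⟦k⟧' ≫ g
  w_bij : ∀ (A Z : 𝒯), H395.PComplete p Z → ∀ (k : ℤ),
    Function.Bijective fun g : (A ⊗ W)⟦k⟧ ⟶ Z => (A ◁ w)⟦k⟧' ≫ g
  /-- `v_{i+1}` -/
  v : ∀ i : ℕ, (𝟙_ 𝒯)⟦sV p (i + 1)⟧ ⟶ R
  /-- the homotopy of a `p`-complete `R`-module is a module over `ℤ_p[v_1, v_2, …]` (509) -/
  kk : ∀ {Y : 𝒯} (_ : ModStr R Y), H395.PComplete p Y → (KK p →+* AddMonoid.End (PiM Y))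
  kk_v : ∀ {Y : 𝒯} (M : ModStr R Y) (hY : H395.PComplete p Y) (i : ℕ) {k k' : ℤ}
    (h : k + sV p (i + 1) = k') (y : (𝟙_ 𝒯)⟦k⟧ ⟶ Y),
    kk M hY (MvPolynomial.X i) (PiM.of Y k y) = PiM.of Y k' (mul M h (v i) y)
  kk_C : ∀ {Y : 𝒯} (M : ModStr R Y) (hY : H395.PComplete p Y) (a : ℤ_[p]) {k : ℤ}
    (y : (𝟙_ 𝒯)⟦k⟧ ⟶ Y), ∃ z : (𝟙_ 𝒯)⟦k⟧ ⟶ Y, kk M hY (C a) (PiM.of Y k y) = PiM.of Y k z
  /-- linear maps of degree `j` induce linear maps -/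
  kk_lin : ∀ {Y Z : 𝒯} (M : ModStr R Y) (hY : H395.PComplete p Y) (N : ModStr R Z)
    (hZ : H395.PComplete p Z) {j : ℤ} (f : Y⟦j⟧ ⟶ Z), IsLin M N f →
    ∀ (a : KK p) (y : PiM Y), PiM.map f (kk M hY a y) = kk N hZ a (PiM.map f y)
  /-- `π_* P` is free on the unit (769) -/
  free : ∀ (k : ℤ) (z : (𝟙_ 𝒯)⟦k⟧ ⟶ P), ∃! f : KK p, HK p k f ∧
    PiM.of P k z = kk MP cP f (PiM.of P 0 (zr 𝒯 ≫ η[R] ≫ c))
  /-- the classes `t^E` -/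
  τ : ∀ E : ℕ →₀ ℕ, (𝟙_ 𝒯)⟦dT p E⟧ ⟶ R ⊗ R
  τ_zero : PiM.of (R ⊗ R) _ (τ 0) = PiM.of (R ⊗ R) 0 (zr 𝒯 ≫ η[R] ≫ (λ_ R).inv ≫ (η[R] ▷ R))
  /-- the augmentation -/
  τ_mul : ∀ E : ℕ →₀ ℕ, E ≠ 0 → τ E ≫ μ[R] = 0
  /-- `[R⟦k⟧, Y] = ∏_E π_{k+|E|} Y` (246) -/
  basis : ∀ {Y : 𝒯} (M : ModStr R Y), H395.PComplete p Y → ∀ (k : ℤ)
    (y : ∀ E : ℕ →₀ ℕ, (𝟙_ 𝒯)⟦k + dT p E⟧ ⟶ Y),
    ∃! a : R⟦k⟧ ⟶ Y, ∀ E, gc rfl (τ E) (ext M a) = y E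
  /-- `π_* W` is free on the `t^E` (769) -/
  freeW : ∀ (k : ℤ) (z : (𝟙_ 𝒯)⟦k⟧ ⟶ W), ∃! g : GG p, (∀ E, HK p (k - dT p E) (coeff E g)) ∧
    PiM.of W k z = ∑ E ∈ g.support, kk MW cW (coeff E g) (PiM.of W (dT p E) (τ E ≫ w))
  /-- the right unit (246) -/
  ηR : ℕ → GG p
  ηR_hom : ∀ i E, HK p (sV p (i + 1) - dT p E) (coeff E (ηR i))
  ηR_mod : ∀ i E, coeff E (ηR i - ∑ a ∈ Finset.range (i + 2),
    C (vK p a) * tG p (i + 1 - a) ^ p ^ a) ∈ II p ^ 2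
  /-- right multiplication with `v_{i+1}` -/
  ηR_eq : ∀ (i : ℕ) (E : ℕ →₀ ℕ) {k : ℤ} (h : sV p (i + 1) + dT p E = k),
    PiM.of W k (gc h (τ E) (fm (tensorLeft R) (rmul (v i))) ≫ w) =
    ∑ E' ∈ (monomial E 1 * ηR i : GG p).support,
      kk MW cW (coeff E' (monomial E 1 * ηR i)) (PiM.of W (dT p E') (τ E' ≫ w))

/-- the degree `k` part -/
noncomputable def PiM.gr (Y : 𝒯) (k : ℤ) : AddSubgroup (PiM Y) := (PiM.of Y k).range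

section

variable {p : ℕ} [Fact p.Prime] {R P W : 𝒯} [MonObj R] [IsCommMonObj R]

/-- the class of a homogeneous `f ∈ ℤ_p[v]` in `π_k P` -/
noncomputable def BPS.cls (b : BPS p R P W) (k : ℤ) (f : KK p) : (𝟙_ 𝒯)⟦k⟧ ⟶ P :=
  (b.kk b.MP b.cP f (PiM.of P 0 (zr 𝒯 ≫ η[R] ≫ b.c))) k

/-- (T-B) source, operations, coordinates -/
def SpecSrc (p n : ℕ) [Fact p.Prime] (𝒯 : Type u) [Category.{0} 𝒯] [Preadditive 𝒯]
    [HasZeroObject 𝒯] [HasShift 𝒯 ℤ] [∀ n : ℤ, (shiftFunctor 𝒯 n).Additive] [Pretriangulated 𝒯]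
    [IsTriangulated 𝒯] [MonoidalCategory 𝒯] [SymmetricCategory 𝒯] [TensorTriangulated 𝒯]
    [MonoidalClosed 𝒯] [HasCoproducts.{0} 𝒯] [HasProducts.{0} 𝒯] [StableCat 𝒯] : Prop :=
  ∀ (R P W : 𝒯) [MonObj R] [IsCommMonObj R] (b : BPS p R P W) (ld : Lead p n) (x : ℕ → KK p),
    (∀ l, HK p (dd p n l) (x l)) → (∀ l, x l - MvPolynomial.X (n + l) ∈ II p ^ 2) →
    ∃ (S : SrcT p n P) (O : OpAlg ld S.src),
      S.u = η[R] ≫ b.c ∧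
      -- `S.x l` is the linear extension of `x l ∈ π_* P`
      (∀ l, b.c⟦dd p n l⟧' ≫ S.x l = hat b.MP (b.cls (dd p n l) (x l))) ∧
      -- the coordinates of an operation
      (∀ (γ : P⟦(0 : ℤ)⟧ ⟶ P), PiM.of P 0 (S.u⟦(0 : ℤ)⟧' ≫ γ) =
        b.kk b.MP b.cP (coeff 0 (O.T 0 γ 1)) (PiM.of P 0 (zr 𝒯 ≫ η[R] ≫ b.c))) ∧
      ∀ (Y : 𝒯) (M : ModStr R Y) (hY : H395.PComplete p Y),
        letI : Module (KK p) (PiM Y) := Module.compHom _ (b.kk M hY)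
        ∃ co : Coor O (S.sys Y) (PiM Y) (PiM.gr Y), (∀ k, co.e k = PiM.of Y k) ∧
          ∀ (k : ℤ) (a : P⟦k⟧ ⟶ Y) (E : ℕ →₀ ℕ),
            co.c k a (monomial E 1) = PiM.of Y (k + dT p E) (gc rfl (b.τ E) (ext M (b.c⟦k⟧' ≫ a)))

end

end Vale.Agent.P221.T
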