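import Vale.Agent.P221.T.SrcDef
import Vale.Agent.P221.T.H746.SB

/-!
# P221, part T: forms of `BP⟨n⟩` over `b : BPS p R P W` (frozen interface `FormD`)
-/

open CategoryTheory MonoidalCategory MonObj Limits Pretriangulated
open MvPolynomial (C coeff monomial rename)
open Vale.Agent.P251.T Vale.Agent.P251.M Vale.Agent.P251.S

set_option linter.unusedSectionVars false

universe u

namespace Vale.Agent.P221.T

variable {𝒯 : Type u} [Category.{0} 𝒯] [Preadditive 𝒯] [HasZeroObject 𝒯]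
    [HasShift 𝒯 ℤ] [∀ n : ℤ, (shiftFunctor 𝒯 n).Additive] [Pretriangulated 𝒯] [IsTriangulated 𝒯]
    [MonoidalCategory 𝒯] [SymmetricCategory 𝒯] [TensorTriangulated 𝒯] [MonoidalClosed 𝒯]
    [HasCoproducts.{0} 𝒯] [HasProducts.{0} 𝒯] [StableCat 𝒯]

/-- A form `B` of `BP⟨n⟩`: `π_* B` is free over `ℤ_p[v_1, …, v_n]` on the image of the unit, the
generators `x l` (`= v_{n+1+l}` modulo `(p, v_1, …)²`) act as zero on it. -/
structure FormD {p : ℕ} [Fact p.Prime] {R P W : 𝒯} [MonObj R] [IsCommMonObj R]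
    (b : BPS p R P W) (n : ℕ) (B : 𝒯) where
  /-- the module structure -/
  MB : ModStr R B
  hB : H395.PComplete p B
  /-- the quotient map -/
  q : R ⟶ B
  q_lin : μ[R] ≫ q = (R ◁ q) ≫ MB.act
  /-- the generators -/
  x : ℕ → KK p
  x_deg : ∀ l, HK p (dd p n l) (x l)
  x_mod : ∀ l, x l - MvPolynomial.X (n + l) ∈ II p ^ 2
  x_zero : ∀ l, b.kk MB hB (x l) (PiM.of B 0 (zr 𝒯 ≫ η[R] ≫ q)) = 0
  free : ∀ (k : ℤ) (z : (𝟙_ 𝒯)⟦k⟧ ⟶ B), ∃! f : MvPolynomial (Fin n) ℤ_[p],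
    HK p k (rename (fun i : Fin n => (i : ℕ)) f) ∧
      PiM.of B k z = b.kk MB hB (rename (fun i : Fin n => (i : ℕ)) f)
        (PiM.of B 0 (zr 𝒯 ≫ η[R] ≫ q))

/-- the map induced by `f : Y ⟶ Z` -/
noncomputable def PiM.map0 {Y Z : 𝒯} (f : Y ⟶ Z) : PiM Y →+ PiM Z :=
  DirectSum.toAddMonoid fun k => (PiM.of Z k).comp
    { toFun := fun y => y ≫ f
      map_zero' := zero_comp
      map_add' := fun _ _ => Preadditive.add_comp _ _ _ _ _ _ }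

theorem PiM.map0_of {Y Z : 𝒯} (f : Y ⟶ Z) (k : ℤ) (y : (𝟙_ 𝒯)⟦k⟧ ⟶ Y) :
    PiM.map0 f (PiM.of Y k y) = PiM.of Z k (y ≫ f) := by
  unfold PiM.map0
  rw [DirectSum.toAddMonoid_of]
  rfl

theorem PiM.map_of {Y Z : 𝒯} {j : ℤ} (f : Y⟦j⟧ ⟶ Z) {k k' : ℤ} (h : j + k = k')
    (y : (𝟙_ 𝒯)⟦k⟧ ⟶ Y) : PiM.map f (PiM.of Y k y) = PiM.of Z k' (gc h y f) := by
  subst h
  unfold PiM.map
  rw [DirectSum.toAddMonoid_of]
  rfl

theorem PiM.of_injective (Y : 𝒯) (k : ℤ) : Function.Injective (PiM.of Y k) :=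
  DirectSum.of_injective (β := fun k => ((𝟙_ 𝒯)⟦k⟧ ⟶ Y)) k

theorem fm_zero (F : 𝒯 ⥤ 𝒯) [F.CommShift ℤ] (X : 𝒯) :
    fm F ((shiftFunctorZero 𝒯 ℤ).hom.app X) = (shiftFunctorZero 𝒯 ℤ).hom.app (F.obj X) := by
  unfold fm
  rw [F.commShiftIso_zero]
  simp [Functor.CommShift.isoZero_inv_app, ← F.map_comp]

namespace FormD

variable {p n : ℕ} [Fact p.Prime] {R P W : 𝒯} [MonObj R] [IsCommMonObj R]
  {b : BPS p R P W} {B : 𝒯} (φ : FormD b n B)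

/-- the quotient map `P ⟶ B` -/
noncomputable def Q : P ⟶ B := ((b.c_bij0' B φ.hB).2 φ.q).choose

theorem c_Q : b.c ≫ φ.Q = φ.q := ((b.c_bij0' B φ.hB).2 φ.q).choose_spec

include φ in
/-- `π_k B = 0` for `k < 0` -/
theorem pi_neg (k : ℤ) (hk : k < 0) (z : (𝟙_ 𝒯)⟦k⟧ ⟶ B) : z = 0 := by
  obtain ⟨f, ⟨hf, hz⟩, -⟩ := φ.free k z
  have h0 : rename (fun i : Fin n => (i : ℕ)) f = 0 := by
    by_contra hne
    obtain ⟨E, hE⟩ := MvPolynomial.ne_zero_iff.1 hne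
    have h1 : Finsupp.weight (fun i => sV p (i + 1)) E = k := hf hE
    have h2 : (0 : ℤ) ≤ Finsupp.weight (fun i => sV p (i + 1)) E := by
      rw [Finsupp.weight_apply]
      refine Finset.sum_nonneg fun i _ => ?_
      refine nsmul_nonneg ?_ _
      have h3 : (1 : ℤ) ≤ (p : ℤ) ^ (i + 1) := by
        have h4 : 1 ≤ p ^ (i + 1) := Nat.one_le_pow _ _ (Fact.out : p.Prime).pos
        exact_mod_cast h4
      unfold sV
      omega
    omega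
  rw [h0, map_zero] at hz
  exact DirectSum.of_injective (β := fun k => ((𝟙_ 𝒯)⟦k⟧ ⟶ B)) k
    (hz.trans (map_zero (PiM.of B k)).symm)

/-- the coordinates of the quotient map -/
theorem coord (E : ℕ →₀ ℕ) {k : ℤ} (h : (0 : ℤ) + dT p E = k) :
    PiM.of B k (gc h (b.τ E) (ext φ.MB (b.c⟦(0 : ℤ)⟧' ≫
      (shiftFunctorZero 𝒯 ℤ).hom.app P ≫ φ.Q))) =
    if E = 0 then PiM.of B 0 (zr 𝒯 ≫ η[R] ≫ φ.q) else 0 := by
  obtain rfl : k = dT p E := by omega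
  have h1 : b.c⟦(0 : ℤ)⟧' ≫ (shiftFunctorZero 𝒯 ℤ).hom.app P ≫ φ.Q =
      (shiftFunctorZero 𝒯 ℤ).hom.app R ≫ φ.q := by
    rw [← φ.c_Q, ← Category.assoc, ← Category.assoc]
    congr 1
    exact (shiftFunctorZero 𝒯 ℤ).hom.naturality b.c
  have h2 : ext φ.MB ((shiftFunctorZero 𝒯 ℤ).hom.app R ≫ φ.q) =
      (shiftFunctorZero 𝒯 ℤ).hom.app (R ⊗ R) ≫ μ[R] ≫ φ.q := by
    unfold ext
    rw [fm_comp, fm_zero, φ.q_lin]
    exact Category.assoc _ _ _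
  rw [h1, h2, gc_zero_shift]
  split_ifs with hE
  · subst hE
    have h3 := congrArg (PiM.map0 (μ[R] ≫ φ.q)) b.τ_zero
    rw [PiM.map0_of, PiM.map0_of] at h3
    rw [h3]
    congr 1
    simp only [Category.assoc]
    rw [MonObj.one_mul_assoc]
    simp
  · rw [← Category.assoc, b.τ_mul E hE, zero_comp, map_zero]

end FormD

end Vale.Agent.P221.T
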