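import Vale.Agent.P221.T.Alg

/-!
# P221, part T: filtered systems (frozen interface)

`Src p n` is the algebraic shadow of `BP`: `E m = [Σ^m BP, BP]`, `x l` the multiplication by the
polynomial generator `x_{n+1+l}` (normalised so that its leading term is `v_{n+1+l}`), `F t m` the
operations `γ` all of whose coordinates `c_E(γ) ∈ π_{m+|E|} BP` lie in `I^t`, and `θ t m γ` the leading
terms of the coordinates (modulo `v_j`, `j > n`).

`Sys S` is the algebraic shadow of a spectrum `Y`: `A k = [Σ^k BP, Y]`, `Pi k = π_k Y`.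

`FS Y gr d` : a complete filtration of `A k`, `k ≥ d`, whose associated graded group is the group of
homogeneous functionals with values in `gr`, such that the operators `x l` act by `DD l`.
-/

open MvPolynomial

namespace Vale.Agent.P221.T

/-- the operations of `BP` -/
structure Src (p n : ℕ) where
  /-- `[Σ^m BP, BP]` -/
  E : ℤ → Type
  [grp : ∀ m, AddCommGroup (E m)]
  /-- the multiplication by `x_{n+1+l}` -/
  x : ∀ l, E (dd p n l)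
  /-- the filtration -/
  F : ℤ → ∀ m, AddSubgroup (E m)
  /-- leading terms of the coordinates -/
  θ : ℤ → ∀ m, E m → Fnl (RR p n)

attribute [instance] Src.grp

/-- the algebraic shadow of a spectrum -/
structure Sys {p n : ℕ} (S : Src p n) where
  /-- `[Σ^k BP, Y]` -/
  A : ℤ → Type
  [grp : ∀ k, AddCommGroup (A k)]
  /-- `π_k Y` -/
  Pi : ℤ → Type
  [grpPi : ∀ k, AddCommGroup (Pi k)]
  /-- restriction along the unit -/
  ev : ∀ k, A k →+ Pi k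
  /-- composition with operations -/
  act : ∀ {k m k' : ℤ}, k + m = k' → A k →+ S.E m →+ A k'
  comm : ∀ (i l : ℕ) {k k₁ k₂ k' : ℤ} (h₁ : k + dd p n i = k₁) (h₁' : k₁ + dd p n l = k')
    (h₂ : k + dd p n l = k₂) (h₂' : k₂ + dd p n i = k') (a : A k),
    act h₁' (act h₁ a (S.x i)) (S.x l) = act h₂' (act h₂ a (S.x l)) (S.x i)

attribute [instance] Sys.grp Sys.grpPi

/-- a filtered system with associated graded module `gr`, in degrees `≥ d` -/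
structure FS {p n : ℕ} {S : Src p n} (Y : Sys S) {N : Type} [AddCommGroup N] [Module (RR p n) N]
    (gr : ℤ → ℤ → AddSubgroup N) (d : ℤ) where
  /-- the filtration -/
  F : ℤ → ∀ k, AddSubgroup (Y.A k)
  mono : ∀ {s s' k : ℤ}, s ≤ s' → F s' k ≤ F s k
  exh : ∀ {k : ℤ}, d ≤ k → ∃ s, F s k = ⊤
  sep : ∀ {k : ℤ}, d ≤ k → ∀ a : Y.A k, (∀ s, a ∈ F s k) → a = 0
  cpl : ∀ {k : ℤ}, d ≤ k → ∀ (s : ℤ) (a : ℕ → Y.A k), (∀ i : ℕ, a i ∈ F (s + i) k) →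
    ∃ b, ∀ m : ℕ, b - ∑ i ∈ Finset.range m, a i ∈ F (s + m) k
  p_mem : ∀ {s k : ℤ} {a : Y.A k}, a ∈ F s k → p • a ∈ F (s + 1) k
  /-- leading terms -/
  θ : ℤ → ∀ k, Y.A k → Fnl N
  θ_add : ∀ {s k : ℤ} {a b : Y.A k}, d ≤ k → a ∈ F s k → b ∈ F s k →
    θ s k (a + b) = θ s k a + θ s k b
  θ_mem : ∀ {s k : ℤ} {a : Y.A k}, d ≤ k → a ∈ F s k → InF p gr k s (θ s k a)
  θ_surj : ∀ {s k : ℤ} {ζ : Fnl N}, d ≤ k → InF p gr k s ζ → ∃ a ∈ F s k, θ s k a = ζ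
  θ_ker : ∀ {s k : ℤ} {a : Y.A k}, d ≤ k → a ∈ F s k → (θ s k a = 0 ↔ a ∈ F (s + 1) k)
  x_mem : ∀ (l : ℕ) {s k k' : ℤ} (h : k + dd p n l = k') {a : Y.A k}, d ≤ k → a ∈ F s k →
    Y.act h a (S.x l) ∈ F (s + 1) k'
  θ_x : ∀ (l : ℕ) {s k k' : ℤ} (h : k + dd p n l = k') {a : Y.A k}, d ≤ k → a ∈ F s k →
    θ (s + 1) k' (Y.act h a (S.x l)) = DD p n l (θ s k a)
  act_mem : ∀ {s k t m k' : ℤ} (h : k + m = k') {a : Y.A k} {γ : S.E m} {y : N}, d ≤ k → d ≤ k' →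
    a ∈ F s k → θ s k a = Pi.single 0 y → γ ∈ S.F t m → Y.act h a γ ∈ F (s + t) k'
  θ_act : ∀ {s k t m k' : ℤ} (h : k + m = k') {a : Y.A k} {γ : S.E m} {y : N}, d ≤ k → d ≤ k' →
    a ∈ F s k → θ s k a = Pi.single 0 y → γ ∈ S.F t m →
    θ (s + t) k' (Y.act h a γ) = fun E => S.θ t m γ E • y
  ev_surj : ∀ {k : ℤ}, d ≤ k → Function.Surjective (Y.ev k)
  ev_lift : ∀ {s k : ℤ} {a : Y.A k}, d ≤ k → a ∈ F s k → θ s k a 0 = 0 →
    ∃ b ∈ F (s + 1) k, Y.ev k b = Y.ev k a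
  ev_zero : ∀ {s k : ℤ} {a : Y.A k}, d ≤ k → a ∈ F s k → Y.ev k a = 0 → θ s k a 0 = 0
  /-- `π_*` is separated for the induced filtration -/
  ev_sep : ∀ {k : ℤ}, d ≤ k → ∀ x : Y.Pi k, (∀ s, ∃ a ∈ F s k, Y.ev k a = x) → x = 0

/-- the functional `y ε` -/
abbrev del {N : Type} [AddCommGroup N] (y : N) : Fnl N := Pi.single 0 y

/-- maps of systems of degree `e` : the shadow of a map `Σ^e Z ⟶ Y` -/
structure SysMap {p n : ℕ} {S : Src p n} (Z Y : Sys S) (e : ℤ) where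
  /-- the map on `A` -/
  f : ∀ {k k' : ℤ}, k + e = k' → Z.A k →+ Y.A k'
  /-- the map on `π` -/
  g : ∀ {k k' : ℤ}, k + e = k' → Z.Pi k →+ Y.Pi k'
  ev : ∀ {k k' : ℤ} (h : k + e = k') (a : Z.A k), Y.ev k' (f h a) = g h (Z.ev k a)
  act : ∀ {k m l k' l' : ℤ} (h : k + m = l) (h₁ : k + e = k') (h₂ : k' + m = l')
    (h₃ : l + e = l') (a : Z.A k) (γ : S.E m), f h₃ (Z.act h a γ) = Y.act h₂ (f h₁ a) γ

section

variable (p n : ℕ)

/-- (F1) solving equations -/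
def SpecF1 : Prop :=
  ∀ (S : Src p n) (Y : Sys S) (N : Type) [AddCommGroup N] [Module (RR p n) N]
    (gr : ℤ → ℤ → AddSubgroup N) (d : ℤ) (T : FS Y gr d) (J : Set ℕ), Van p n J gr d →
    ∀ (k s : ℤ), d ≤ k → ∀ ψ : ∀ l, Y.A (k + dd p n l), (∀ l ∈ J, ψ l ∈ T.F (s + 1) _) →
    (∀ i ∈ J, ∀ l ∈ J, ∀ (k' : ℤ) (h : k + dd p n l + dd p n i = k')
      (h' : k + dd p n i + dd p n l = k'), Y.act h (ψ l) (S.x i) = Y.act h' (ψ i) (S.x l)) →
    ∃ φ ∈ T.F s k, ∀ l ∈ J, Y.act rfl φ (S.x l) = ψ l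

/-- (F2) every homogeneous element of `gr` is the leading term of an element killed by all `x l` -/
def SpecF2 : Prop :=
  ∀ (S : Src p n) (Y : Sys S) (N : Type) [AddCommGroup N] [Module (RR p n) N]
    (gr : ℤ → ℤ → AddSubgroup N) (d : ℤ) (T : FS Y gr d), Van p n Set.univ gr d →
    (∀ l, S.x l ∈ S.F 1 _) → (∀ l, S.θ 1 _ (S.x l) = 0) →
    ∀ (k s : ℤ), d ≤ k → ∀ y ∈ gr k s, ∃ a ∈ T.F s k, T.θ s k a = del y ∧
      ∀ (l : ℕ), Y.act rfl a (S.x l) = 0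

/-- (F3) the kernel of a surjective map: `X` is the fibre of `b : Z ⟶ Y` -/
def SpecF3 : Prop :=
  ∀ (S : Src p n) (X Z Y : Sys S) (N N' : Type) [AddCommGroup N] [Module (RR p n) N]
    [AddCommGroup N'] [Module (RR p n) N'] (gr' : ℤ → ℤ → AddSubgroup N')
    (gr : ℤ → ℤ → AddSubgroup N) (d : ℤ) (T' : FS Z gr' d) (T : FS Y gr d)
    (f : N' →ₗ[RR p n] N) (i : SysMap X Z 0) (b : SysMap Z Y 0), IsSurj gr' gr f →
    (∀ (k s : ℤ) (a : Z.A k), d ≤ k → a ∈ T'.F s k → b.f (add_zero k) a ∈ T.F s k ∧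
      T.θ s k (b.f (add_zero k) a) = fun E => f (T'.θ s k a E)) →
    -- exactness
    (∀ (k : ℤ) (a : Z.A k), d ≤ k → (b.f (add_zero k) a = 0 ↔ ∃ c, i.f (add_zero k) c = a)) →
    (∀ (k : ℤ) (a : Z.Pi k), d ≤ k → (b.g (add_zero k) a = 0 ↔ ∃ c, i.g (add_zero k) c = a)) →
    (∀ (k : ℤ) (c : X.A k), d ≤ k → (∀ a : Y.A (k + 1), ∃ a', b.f (add_zero (k + 1)) a' = a) →
      i.f (add_zero k) c = 0 → c = 0) →
    (∀ (k : ℤ) (c : X.Pi k), d ≤ k → (∀ a : Y.Pi (k + 1), ∃ a', b.g (add_zero (k + 1)) a' = a) →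
      i.g (add_zero k) c = 0 → c = 0) →
    Nonempty (FS X (kerGr gr' f) d) ∧
      (∀ (k : ℤ) (a : Y.A k), d ≤ k → ∃ a', b.f (add_zero k) a' = a) ∧
      (∀ (k : ℤ) (a : Y.Pi k), d ≤ k → ∃ a', b.g (add_zero k) a' = a)

/-- `B` is approximated by the operations: `g ∈ A_0(B)` is the quotient map `BP ⟶ B`. -/
structure Approx {p n : ℕ} {S : Src p n} (B : Sys S) (T : ∀ d, FS B (grR p n) d) (g : B.A 0) :
    Prop where
  mem : ∀ d : ℤ, g ∈ (T d).F 0 0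
  θg : ∀ d : ℤ, (T d).θ 0 0 g = del 1
  indep : ∀ d d' : ℤ, (T d).F = (T d').F ∧ (T d).θ = (T d').θ
  appr : ∀ (d k s : ℤ) (a : B.A k) (M : ℕ), a ∈ (T d).F s k →
    ∃ γ ∈ S.F s k, ∃ b : B.A k, a = B.act (zero_add k) g γ + (p ^ M) • b

/-- (F4) maps out of sums of suspensions of `B` -/
def SpecF4 : Prop :=
  ∀ (S : Src p n) (B : Sys S) (TB : ∀ d, FS B (grR p n) d) (g : B.A 0), Approx B TB g →
    ∀ (Z Y : Sys S) (N : Type) [AddCommGroup N] [Module (RR p n) N]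
    (gr : ℤ → ℤ → AddSubgroup N) (d : ℤ) (T : FS Y gr d)
    (r : ℕ) (e a : Fin r → ℤ) (j : ∀ i, SysMap B Z (e i)) (b : SysMap Z Y 0)
    (c : ∀ i, SysMap B Y (e i)) (f : (Fin r → RR p n) →ₗ[RR p n] N),
    -- `Z` is the sum of the `Σ^{e i} B`
    (∀ (k : ℤ) (z : Z.A k), ∃! w : ∀ i, B.A (k - e i), z = ∑ i, (j i).f (by omega) (w i)) →
    (∀ (k : ℤ) (z : Z.Pi k), ∃! w : ∀ i, B.Pi (k - e i), z = ∑ i, (j i).g (by omega) (w i)) →
    (∀ i, d ≤ e i) → (∀ k s x, x ∈ grFree p n e a k s → f x ∈ gr k s) →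
    (∀ (i) (k k' : ℤ) (h : k + e i = k') (w : B.A k),
      b.f (add_zero k') ((j i).f h w) = (c i).f h w) →
    (∀ i, (c i).f (zero_add (e i)) g ∈ T.F (a i) (e i)) →
    (∀ i, T.θ (a i) (e i) ((c i).f (zero_add (e i)) g) = del (f (Pi.single i 1))) →
    ∃ T' : FS Z (grFree p n e a) d, ∀ (k s : ℤ) (z : Z.A k), d ≤ k → z ∈ T'.F s k →
      b.f (add_zero k) z ∈ T.F s k ∧
        T.θ s k (b.f (add_zero k) z) = fun E => f (T'.θ s k z E)

end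

end Vale.Agent.P221.T
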