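import Vale.Agent.P251.T.Axioms
import Vale.Agent.P221.T.Filt

/-!
# P221, part T: graded composition

`gc h γ a : P⟦k'⟧ ⟶ Y` is the composite of `γ : P⟦m⟧ ⟶ Q` and `a : Q⟦k⟧ ⟶ Y`, `k + m = k'`.
-/

open CategoryTheory Limits

universe v u

set_option linter.unusedSectionVars false

namespace Vale.Agent.P221.T

section

variable {𝒯 : Type u} [Category.{v} 𝒯] [Preadditive 𝒯] [HasShift 𝒯 ℤ]
  [∀ n : ℤ, (shiftFunctor 𝒯 n).Additive]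

/-- graded composition -/
noncomputable def gc {P Q Y : 𝒯} {m k k' : ℤ} (h : k + m = k') (γ : P⟦m⟧ ⟶ Q) (a : Q⟦k⟧ ⟶ Y) :
    P⟦k'⟧ ⟶ Y :=
  (shiftFunctorAdd' 𝒯 m k k' (by omega)).hom.app P ≫ γ⟦k⟧' ≫ a

theorem gc_add_left {P Q Y : 𝒯} {m k k' : ℤ} (h : k + m = k') (γ γ' : P⟦m⟧ ⟶ Q)
    (a : Q⟦k⟧ ⟶ Y) : gc h (γ + γ') a = gc h γ a + gc h γ' a := by
  simp only [gc, Functor.map_add, Preadditive.add_comp, Preadditive.comp_add]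

theorem gc_add_right {P Q Y : 𝒯} {m k k' : ℤ} (h : k + m = k') (γ : P⟦m⟧ ⟶ Q)
    (a a' : Q⟦k⟧ ⟶ Y) : gc h γ (a + a') = gc h γ a + gc h γ a' := by
  simp only [gc, Preadditive.comp_add]

theorem gc_zero_left {P Q Y : 𝒯} {m k k' : ℤ} (h : k + m = k') (a : Q⟦k⟧ ⟶ Y) :
    gc h (0 : P⟦m⟧ ⟶ Q) a = 0 := by
  simp only [gc, Functor.map_zero, zero_comp, comp_zero]

theorem gc_zero_right {P Q Y : 𝒯} {m k k' : ℤ} (h : k + m = k') (γ : P⟦m⟧ ⟶ Q) :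
    gc h γ (0 : Q⟦k⟧ ⟶ Y) = 0 := by
  simp only [gc, comp_zero]

theorem gc_comp {P Q Y Z : 𝒯} {m k k' : ℤ} (h : k + m = k') (γ : P⟦m⟧ ⟶ Q) (a : Q⟦k⟧ ⟶ Y)
    (b : Y ⟶ Z) : gc h γ (a ≫ b) = gc h γ a ≫ b := by
  simp only [gc, Category.assoc]

theorem comp_gc {P P' Q Y : 𝒯} {m k k' : ℤ} (h : k + m = k') (c : P' ⟶ P) (γ : P⟦m⟧ ⟶ Q)
    (a : Q⟦k⟧ ⟶ Y) : c⟦k'⟧' ≫ gc h γ a = gc h (c⟦m⟧' ≫ γ) a := by
  simp only [gc, Functor.map_comp, Category.assoc]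
  exact (shiftFunctorAdd' 𝒯 m k k' (by omega)).hom.naturality_assoc c _

theorem gc_map {P Q Q' Y : 𝒯} {m k k' : ℤ} (h : k + m = k') (γ : P⟦m⟧ ⟶ Q) (c : Q ⟶ Q')
    (a : Q'⟦k⟧ ⟶ Y) : gc h (γ ≫ c) a = gc h γ (c⟦k⟧' ≫ a) := by
  simp only [gc, Functor.map_comp, Category.assoc]

theorem gc_assoc {P Q W Y : 𝒯} {m l k k₁ k₂ k' : ℤ} (γ : P⟦m⟧ ⟶ Q) (δ : Q⟦l⟧ ⟶ W)
    (a : W⟦k⟧ ⟶ Y) (h₁ : k + l = k₁) (h₂ : k₁ + m = k') (h₃ : l + m = k₂) (h₄ : k + k₂ = k') :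
    gc h₂ γ (gc h₁ δ a) = gc h₄ (gc h₃ γ δ) a := by
  have h := shiftFunctorAdd'_assoc_hom_app (C := 𝒯) m l k k₂ k₁ k' (by omega) (by omega)
    (by omega) P
  simp only [gc, Functor.map_comp, Category.assoc]
  rw [reassoc_of% h]
  congr 1
  exact (shiftFunctorAdd' 𝒯 l k k₁ (by omega)).hom.naturality_assoc γ _

end

end Vale.Agent.P221.T
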