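import Mathlib.RingTheory.MvPolynomial.WeightedHomogeneous
import Mathlib.Algebra.Field.ZMod
import Mathlib.Algebra.Module.Submodule.Ker

/-!
# P221, part T: the algebra over `R = 𝔽_p[v_0, …, v_n]` (frozen interface)

Conventions.

* `RR p n = MvPolynomial (Fin (n+1)) (ZMod p)`; the variable `X a` is `v_a` (`v_0` is the class of
  `p`), of degree `sV p a = 2 (p^a - 1)` and of filtration `1`;
* `T`-monomials are `E : ℕ →₀ ℕ`; the variable `j` is `t_{j+1}`, of degree `2 (p^(j+1) - 1)`;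
* the relation with index `l ≥ 0` is `r_l = ∑_{a ≤ n} v_a t_{n+1+l-a}^{p^a}`, of degree
  `dd p n l = 2 (p^(n+1+l) - 1)`;
* a graded module is an `RR p n`-module `N` with subgroups `gr k s` (degree `k`, filtration `s`)
  such that `v_a (gr k s) ⊆ gr (k + sV p a) (s + 1)` (`IsGr`); only homogeneous elements matter. In
  particular a smaller family `gr'` on the same `N` is a graded submodule, `gr` cut off below degree
  `d` (`trunc`) is the truncation, and the kernel of `f : (F, grF) → (N, gr)` is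
  `(F, grF ⊓ ker f)` (`kerGr`).
-/

open MvPolynomial

namespace Vale.Agent.P221.T

/-- `𝔽_p[v_0, …, v_n]` -/
abbrev RR (p n : ℕ) : Type := MvPolynomial (Fin (n + 1)) (ZMod p)

/-- the degree of `v_a` -/
def sV (p a : ℕ) : ℤ := 2 * ((p : ℤ) ^ a - 1)

/-- the degree of a `T`-monomial -/
noncomputable def dT (p : ℕ) (E : ℕ →₀ ℕ) : ℤ := Finsupp.weight (fun j => sV p (j + 1)) E

/-- the degree of the relation `r_l` (and of `x_{n+1+l}`) -/
def dd (p n l : ℕ) : ℤ := sV p (n + 1 + l)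

/-- functionals with values in `N` -/
abbrev Fnl (N : Type) : Type := (ℕ →₀ ℕ) → N

section

variable (p n : ℕ) {N : Type} [AddCommGroup N] [Module (RR p n) N]

/-- the operator of `r_l` on functionals -/
noncomputable def DD (l : ℕ) (ζ : Fnl N) : Fnl N := fun E =>
  ∑ a : Fin (n + 1), (X a : RR p n) • ζ (E + Finsupp.single (n + l - a) (p ^ (a : ℕ)))

/-- `gr` is a graded module -/
def IsGr (gr : ℤ → ℤ → AddSubgroup N) : Prop :=
  ∀ (a : Fin (n + 1)) (k s : ℤ) (y : N), y ∈ gr k s → (X a : RR p n) • y ∈ gr (k + sV p a) (s + 1)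

/-- `ζ` is a homogeneous functional of degree `k` and filtration `s` -/
def InF (gr : ℤ → ℤ → AddSubgroup N) (k s : ℤ) (ζ : Fnl N) : Prop :=
  ∀ E, ζ E ∈ gr (k + dT p E) s

/-- vanishing of `H¹` for the relations `r_l`, `l ∈ J`, in all degrees `≥ d` -/
def Van (J : Set ℕ) (gr : ℤ → ℤ → AddSubgroup N) (d : ℤ) : Prop :=
  ∀ (k : ℤ), d ≤ k → ∀ (s : ℤ) (ψ : ℕ → Fnl N),
    (∀ l ∈ J, InF p gr (k + dd p n l) (s + 1) (ψ l)) →
    (∀ i ∈ J, ∀ l ∈ J, DD p n i (ψ l) = DD p n l (ψ i)) →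
    ∃ φ : Fnl N, InF p gr k s φ ∧ ∀ l ∈ J, DD p n l φ = ψ l

end

/-! ### Free modules -/

/-- the grading of the ring -/
noncomputable def grR (p n : ℕ) (k s : ℤ) : AddSubgroup (RR p n) :=
  (weightedHomogeneousSubmodule (ZMod p) (fun a : Fin (n + 1) => sV p a) k ⊓
    weightedHomogeneousSubmodule (ZMod p) (fun _ : Fin (n + 1) => (1 : ℤ)) s).toAddSubgroup

/-- the grading of the free module with generators `i` of degree `e i` and filtration `a i` -/
noncomputable def grFree (p n : ℕ) {r : ℕ} (e a : Fin r → ℤ) (k s : ℤ) :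
    AddSubgroup (Fin r → RR p n) where
  carrier := {f | ∀ i, f i ∈ grR p n (k - e i) (s - a i)}
  add_mem' := fun {_ _} h h' i => (grR p n _ _).add_mem (h i) (h' i)
  zero_mem' := fun _ => (grR p n _ _).zero_mem
  neg_mem' := fun {_} h i => (grR p n _ _).neg_mem (h i)

/-- (V), helper521 -/
def SpecV (p n : ℕ) : Prop :=
  ∀ (J : Set ℕ) (d : ℤ), 4 - 2 * (p : ℤ) ^ (n + 1) ≤ d → Van p n J (grR p n) d

/-! ### Truncations, kernels, resolutions -/

section

variable (p n : ℕ) {N N' : Type} [AddCommGroup N] [Module (RR p n) N] [AddCommGroup N']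
  [Module (RR p n) N']

/-- the truncation -/
noncomputable def trunc (d : ℤ) (gr : ℤ → ℤ → AddSubgroup N) (k s : ℤ) : AddSubgroup N :=
  if d ≤ k then gr k s else ⊥

variable {p n}

/-- `f : (N', gr') → (N, gr)` is a surjective map of graded modules -/
structure IsSurj (gr' : ℤ → ℤ → AddSubgroup N') (gr : ℤ → ℤ → AddSubgroup N)
    (f : N' →ₗ[RR p n] N) : Prop where
  map : ∀ k s x, x ∈ gr' k s → f x ∈ gr k s
  surj : ∀ k s y, y ∈ gr k s → ∃ x ∈ gr' k s, f x = y

/-- the kernel of `f` -/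
noncomputable def kerGr (gr' : ℤ → ℤ → AddSubgroup N') (f : N' →ₗ[RR p n] N) (k s : ℤ) : AddSubgroup N' :=
  gr' k s ⊓ f.toAddMonoidHom.ker

end

/-- the width of the window -/
def WW (p n : ℕ) : ℤ := ∑ a : Fin (n + 1), sV p a

/-- `gr` has a free resolution of length `i` with all generators in degrees `d, …, d + WW p n` -/
def QQ (p n : ℕ) (d : ℤ) (i : ℕ) : ∀ (N : Type) [AddCommGroup N] [Module (RR p n) N],
    (ℤ → ℤ → AddSubgroup N) → Prop :=
  Nat.rec (fun _ _ _ gr => ∀ k s, gr k s = ⊥)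
    (fun _ Q N _ _ gr => ∃ (r : ℕ) (e a : Fin r → ℤ) (f : (Fin r → RR p n) →ₗ[RR p n] N),
      (∀ j, d ≤ e j ∧ e j ≤ d + WW p n) ∧ IsSurj (grFree p n e a) gr f ∧
        Q (Fin r → RR p n) (kerGr (grFree p n e a) f)) i

section

variable {p n : ℕ} {N : Type} [AddCommGroup N] [Module (RR p n) N]

theorem QQ_zero (d : ℤ) (gr : ℤ → ℤ → AddSubgroup N) :
    QQ p n d 0 N gr ↔ ∀ k s, gr k s = ⊥ := Iff.rfl

theorem QQ_succ (d : ℤ) (i : ℕ) (gr : ℤ → ℤ → AddSubgroup N) :
    QQ p n d (i + 1) N gr ↔ ∃ (r : ℕ) (e a : Fin r → ℤ) (f : (Fin r → RR p n) →ₗ[RR p n] N),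
      (∀ j, d ≤ e j ∧ e j ≤ d + WW p n) ∧ IsSurj (grFree p n e a) gr f ∧
        QQ p n d i (Fin r → RR p n) (kerGr (grFree p n e a) f) := Iff.rfl

/-- `gr` is finitely generated -/
def FG (gr : ℤ → ℤ → AddSubgroup N) : Prop :=
  ∃ (r : ℕ) (e a : Fin r → ℤ) (f : (Fin r → RR p n) →ₗ[RR p n] N), IsSurj (grFree p n e a) gr f

end

/-- vanishing of `H¹` for modules with a resolution in the window. (Proof: for finite
`J = {0, …, m-1}` by induction on `i` and `m`: lift a cocycle of `N` killed by the earlier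
operators to the free module, correct it by the vanishing for the kernel, use `SpecV`; then for
`J = univ` weight by weight, `t_i` of weight `p^i`.) -/
def SpecVan (p n : ℕ) : Prop :=
  ∀ (d : ℤ) (i : ℕ) (N : Type) [AddCommGroup N] [Module (RR p n) N]
    (gr : ℤ → ℤ → AddSubgroup N), IsGr p n gr → QQ p n d i N gr →
    (∀ m : ℕ, Van p n {l | l < m} gr d) ∧ Van p n Set.univ gr d

/-- resolutions: truncations of finitely generated modules, and modules concentrated in one
degree. -/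
def SpecRes (p n : ℕ) : Prop :=
  (∀ (N : Type) [AddCommGroup N] [Module (RR p n) N] (gr : ℤ → ℤ → AddSubgroup N),
    IsGr p n gr → FG (p := p) (n := n) gr → ∃ d₀ : ℤ, ∀ d, d₀ ≤ d → ∃ i, QQ p n d i N (trunc d gr)) ∧
  (∀ (N : Type) [AddCommGroup N] [Module (RR p n) N] (gr : ℤ → ℤ → AddSubgroup N) (m : ℤ),
    IsGr p n gr → FG (p := p) (n := n) gr → (∀ k s, k ≠ m → gr k s = ⊥) → ∃ i, QQ p n m i N gr)

end Vale.Agent.P221.T
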