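import Vale.Agent.P221.T.Top
import Vale.Agent.P251.S.TensorShift
import Vale.Agent.P093.N.Nak1

/-!
# P221, part T: graded maps and modules over a monoid `R` (frozen definitions)

* `fm F γ : (F P)⟦m⟧ ⟶ F Q` for `γ : P⟦m⟧ ⟶ Q` and a functor `F` with commutation isomorphisms;
* `ext M a : (R ⊗ Z)⟦k⟧ ⟶ X` for `a : Z⟦k⟧ ⟶ X`, the `R`-linear extension of degree `k`;
* `IsLin MX MY f` : `f : X⟦j⟧ ⟶ Y` is `R`-linear;
* `hat M y : R⟦k⟧ ⟶ X` for `y : 𝟙⟦k⟧ ⟶ X`, the multiplication with `y`;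
* `mul h M v y = gc h v (hat M y) : 𝟙⟦k'⟧ ⟶ X` for `v : 𝟙⟦m⟧ ⟶ R`, the product.
-/

open CategoryTheory MonoidalCategory MonObj Limits Pretriangulated
open Vale.Agent.P251.T Vale.Agent.P251.M Vale.Agent.P251.S

set_option linter.unusedSectionVars false

universe u

namespace Vale.Agent.P221.T

variable {𝒯 : Type u} [Category.{0} 𝒯] [Preadditive 𝒯] [HasZeroObject 𝒯]
    [HasShift 𝒯 ℤ] [∀ n : ℤ, (shiftFunctor 𝒯 n).Additive] [Pretriangulated 𝒯] [IsTriangulated 𝒯]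
    [MonoidalCategory 𝒯] [SymmetricCategory 𝒯] [TensorTriangulated 𝒯] [MonoidalClosed 𝒯]
    [HasCoproducts.{0} 𝒯] [HasProducts.{0} 𝒯] [StableCat 𝒯]

section fm

variable (F : 𝒯 ⥤ 𝒯) [F.CommShift ℤ]

/-- the image of a graded map -/
noncomputable def fm {P Q : 𝒯} {m : ℤ} (γ : P⟦m⟧ ⟶ Q) : (F.obj P)⟦m⟧ ⟶ F.obj Q :=
  (F.commShiftIso m).inv.app P ≫ F.map γ

theorem fm_comp {P Q Q' : 𝒯} {m : ℤ} (γ : P⟦m⟧ ⟶ Q) (f : Q ⟶ Q') :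
    fm F (γ ≫ f) = fm F γ ≫ F.map f := by
  unfold fm
  rw [F.map_comp, Category.assoc]

theorem shift_fm {P P' Q : 𝒯} {m : ℤ} (f : P' ⟶ P) (γ : P⟦m⟧ ⟶ Q) :
    fm F (f⟦m⟧' ≫ γ) = (F.map f)⟦m⟧' ≫ fm F γ := by
  unfold fm
  rw [F.map_comp, ← Category.assoc, ← Category.assoc]
  congr 1
  exact ((F.commShiftIso m).inv.naturality f).symm

theorem fm_add [F.Additive] {P Q : 𝒯} {m : ℤ} (γ γ' : P⟦m⟧ ⟶ Q) :
    fm F (γ + γ') = fm F γ + fm F γ' := by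
  unfold fm
  rw [F.map_add, Preadditive.comp_add]

theorem fm_gc {P Q Y : 𝒯} {m k k' : ℤ} (h : k + m = k') (γ : P⟦m⟧ ⟶ Q) (a : Q⟦k⟧ ⟶ Y) :
    fm F (gc h γ a) = gc h (fm F γ) (fm F a) := by
  have h1 := F.commShiftIso_add' (a := m) (b := k) (c := k') (by omega)
  have h2 : (F.commShiftIso k').inv.app P =
      (shiftFunctorAdd' 𝒯 m k k' (by omega)).hom.app (F.obj P) ≫
        ((F.commShiftIso m).inv.app P)⟦k⟧' ≫ (F.commShiftIso k).inv.app (P⟦m⟧) ≫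
          F.map ((shiftFunctorAdd' 𝒯 m k k' (by omega)).inv.app P) := by
    rw [h1]
    simp [Functor.CommShift.isoAdd'_inv_app]
  unfold fm gc
  rw [h2]
  simp only [Functor.map_comp, Category.assoc]
  rw [← F.map_comp_assoc ((shiftFunctorAdd' 𝒯 m k k' _).inv.app P), Iso.inv_hom_id_app]
  simp only [CategoryTheory.Functor.map_id, Category.id_comp]
  have h3 : (F.map γ)⟦k⟧' ≫ (F.commShiftIso k).inv.app Q =
      (F.commShiftIso k).inv.app (P⟦m⟧) ≫ F.map (γ⟦k⟧') := (F.commShiftIso k).inv.naturality γ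
  rw [reassoc_of% h3]

end fm

section lin

variable {R : 𝒯} [MonObj R] {X Y Z Z' : 𝒯}

/-- the `R`-linear extension of degree `k` -/
noncomputable def ext (M : ModStr R X) {k : ℤ} (a : Z⟦k⟧ ⟶ X) : (R ⊗ Z)⟦k⟧ ⟶ X :=
  fm (tensorLeft R) a ≫ M.act

/-- `f : X⟦j⟧ ⟶ Y` is `R`-linear -/
def IsLin (M : ModStr R X) (N : ModStr R Y) {j : ℤ} (f : X⟦j⟧ ⟶ Y) : Prop :=
  ext N f = M.act⟦j⟧' ≫ f

theorem ext_add (M : ModStr R X) {k : ℤ} (a b : Z⟦k⟧ ⟶ X) : ext M (a + b) = ext M a + ext M b := by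
  unfold ext
  rw [fm_add, Preadditive.add_comp]

theorem shift_ext (M : ModStr R X) {k : ℤ} (f : Z' ⟶ Z) (a : Z⟦k⟧ ⟶ X) :
    ext M (f⟦k⟧' ≫ a) = (R ◁ f)⟦k⟧' ≫ ext M a := by
  unfold ext
  rw [shift_fm, Category.assoc]
  rfl

/-- the linear extension of a composite -/
theorem ext_gc (M : ModStr R X) {m k k' : ℤ} (h : k + m = k') (γ : Z⟦m⟧ ⟶ Z') (a : Z'⟦k⟧ ⟶ X) :
    ext M (gc h γ a) = gc h (fm (tensorLeft R) γ) (ext M a) := by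
  unfold ext
  rw [fm_gc, gc_comp]

/-- composition with a linear map -/
theorem ext_gc_lin {M : ModStr R X} {N : ModStr R Y} {j : ℤ} {f : X⟦j⟧ ⟶ Y} (hf : IsLin M N f)
    {k k' : ℤ} (h : j + k = k') (a : Z⟦k⟧ ⟶ X) : ext N (gc h a f) = gc h (ext M a) f := by
  rw [ext_gc, hf]
  unfold ext
  rw [gc_map]

/-- `y : 𝟙⟦k⟧ ⟶ X` gives `R⟦k⟧ ⟶ X` -/
noncomputable def hat (M : ModStr R X) {k : ℤ} (y : (𝟙_ 𝒯)⟦k⟧ ⟶ X) : R⟦k⟧ ⟶ X :=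
  ((ρ_ R).inv)⟦k⟧' ≫ ext M y

theorem hat_add (M : ModStr R X) {k : ℤ} (y z : (𝟙_ 𝒯)⟦k⟧ ⟶ X) :
    hat M (y + z) = hat M y + hat M z := by
  unfold hat
  rw [ext_add, Preadditive.comp_add]

theorem hat_gc_lin {M : ModStr R X} {N : ModStr R Y} {j : ℤ} {f : X⟦j⟧ ⟶ Y} (hf : IsLin M N f)
    {k k' : ℤ} (h : j + k = k') (y : (𝟙_ 𝒯)⟦k⟧ ⟶ X) : hat N (gc h y f) = gc h (hat M y) f := by
  unfold hat
  rw [ext_gc_lin hf h]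
  exact comp_gc h (ρ_ R).inv (ext M y) f

/-- the product of `v ∈ π_m R` and `y ∈ π_k X` -/
noncomputable def mul (M : ModStr R X) {m k k' : ℤ} (h : k + m = k') (v : (𝟙_ 𝒯)⟦m⟧ ⟶ R)
    (y : (𝟙_ 𝒯)⟦k⟧ ⟶ X) : (𝟙_ 𝒯)⟦k'⟧ ⟶ X := gc h v (hat M y)

theorem mul_add (M : ModStr R X) {m k k' : ℤ} (h : k + m = k') (v : (𝟙_ 𝒯)⟦m⟧ ⟶ R)
    (y z : (𝟙_ 𝒯)⟦k⟧ ⟶ X) : mul M h v (y + z) = mul M h v y + mul M h v z := by
  unfold mul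
  rw [hat_add, gc_add_right]

theorem add_mul (M : ModStr R X) {m k k' : ℤ} (h : k + m = k') (v w : (𝟙_ 𝒯)⟦m⟧ ⟶ R)
    (y : (𝟙_ 𝒯)⟦k⟧ ⟶ X) : mul M h (v + w) y = mul M h v y + mul M h w y := gc_add_left h v w _

/-- linear maps commute with products -/
theorem mul_gc_lin {M : ModStr R X} {N : ModStr R Y} {j : ℤ} {f : X⟦j⟧ ⟶ Y} (hf : IsLin M N f)
    {m k k' l l' : ℤ} (h : j + k = k') (h₁ : k' + m = l') (h₂ : k + m = l) (h₃ : j + l = l')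
    (v : (𝟙_ 𝒯)⟦m⟧ ⟶ R) (y : (𝟙_ 𝒯)⟦k⟧ ⟶ X) :
    mul N h₁ v (gc h y f) = gc h₃ (mul M h₂ v y) f := by
  unfold mul
  rw [hat_gc_lin hf h, gc_assoc v (hat M y) f h h₁ h₂ h₃]

end lin

end Vale.Agent.P221.T
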