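import Vale.Agent.P221.T.SrcDef

/-!
# P221, part T: `SpecSrc` from the leaves `SpecA1`, `SpecA2`, `SpecB1`, `SpecB2`
-/

open CategoryTheory MonoidalCategory Limits Pretriangulated
open MvPolynomial (C coeff monomial)
open Vale.Agent.P251.T Vale.Agent.P251.M Vale.Agent.P251.S

set_option linter.unusedSectionVars false

universe u

namespace Vale.Agent.P221.T

variable {𝒯 : Type u} [Category.{0} 𝒯] [Preadditive 𝒯] [HasZeroObject 𝒯]
    [HasShift 𝒯 ℤ] [∀ n : ℤ, (shiftFunctor 𝒯 n).Additive] [Pretriangulated 𝒯] [IsTriangulated 𝒯]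
    [MonoidalCategory 𝒯] [SymmetricCategory 𝒯] [TensorTriangulated 𝒯] [MonoidalClosed 𝒯]
    [HasCoproducts.{0} 𝒯] [HasProducts.{0} 𝒯] [StableCat 𝒯]

namespace BPS

variable {p n : ℕ} [Fact p.Prime] {R P W : 𝒯} [MonObj R] [IsCommMonObj R] (b : BPS p R P W)

theorem T_zero' (A1 : b.SpecA1) {m : ℤ} : b.T (0 : P⟦m⟧ ⟶ P) = 0 := by
  have h := A1.T_add (0 : P⟦m⟧ ⟶ P) 0
  rw [add_zero] at h
  refine LinearMap.ext fun z => ?_
  have h1 := LinearMap.congr_fun h z
  rw [LinearMap.add_apply] at h1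
  exact left_eq_add.1 h1

theorem T_neg (A1 : b.SpecA1) {m : ℤ} (γ : P⟦m⟧ ⟶ P) : b.T (-γ) = -b.T γ := by
  have h := A1.T_add γ (-γ)
  rw [add_neg_cancel, b.T_zero' A1] at h
  refine LinearMap.ext fun z => ?_
  have h1 := LinearMap.congr_fun h z
  rw [LinearMap.add_apply, LinearMap.zero_apply] at h1
  rw [LinearMap.neg_apply]
  exact (neg_eq_of_add_eq_zero_right h1.symm).symm

/-- the source -/
noncomputable def srcT (ld : Lead p n) (A1 : b.SpecA1) (B1 : b.SpecB1) (x : ℕ → KK p)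
    (hx : ∀ l, HK p (dd p n l) (x l)) : SrcT p n P where
  u := MonObj.one (X := R) ≫ b.c
  x l := b.mult (dd p n l) (x l)
  comm i l _ h h' := B1.comm (dd p n i) (dd p n l) _ (x i) (x l) (hx i) (hx l) h h'
  F t m :=
    { carrier := {γ | ∀ E E', coeff E' (b.T γ (monomial E 1)) ∈ Ip p t}
      add_mem' := fun {γ γ'} h h' E E' => by
        rw [A1.T_add, LinearMap.add_apply, MvPolynomial.coeff_add]
        exact Ideal.add_mem _ (h E E') (h' E E')
      zero_mem' := fun E E' => by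
        rw [b.T_zero' A1, LinearMap.zero_apply, MvPolynomial.coeff_zero]
        exact Ideal.zero_mem _
      neg_mem' := fun {γ} h E E' => by
        rw [b.T_neg A1, LinearMap.neg_apply, MvPolynomial.coeff_neg]
        exact (Ideal.neg_mem_iff _).2 (h E E') }
  θ t m γ E := ld.L t (coeff 0 (b.T γ (monomial E 1)))

/-- the operations -/
noncomputable def opAlg (ld : Lead p n) (A1 : b.SpecA1) (B1 : b.SpecB1) (B2 : b.SpecB2)
    (x : ℕ → KK p) (hx : ∀ l, HK p (dd p n l) (x l))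
    (hx2 : ∀ l, x l - MvPolynomial.X (n + l) ∈ II p ^ 2) :
    OpAlg ld (b.srcT ld A1 B1 x hx).src where
  T m :=
    { toFun := fun γ => b.T γ
      map_zero' := b.T_zero' A1
      map_add' := fun γ γ' => A1.T_add γ γ' }
  homog m γ E E' := A1.T_homog γ E E'
  F_iff t m γ := Iff.rfl
  θ_eq t m γ E _ := rfl
  η l := b.eta (x l)
  T_x l z := B1.T_mult (dd p n l) (x l) (hx l) z
  η_mem l E := by
    have h := B1.eta_mod (n + l) (x l) (hx2 l) E
    have e1 : n + l + 2 = n + 2 + l := by omega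
    have e2 : n + l + 1 = n + 1 + l := by omega
    rw [e1, e2] at h
    exact h
  appr m t M c hc hc' := by
    obtain ⟨γ, h1, h2⟩ := B2.appr n m t c hc hc'
    exact ⟨γ, h1, fun E => ⟨0, by rw [mul_zero, add_zero]; exact h2 E⟩⟩

end BPS

theorem specSrc_of (p n : ℕ) [Fact p.Prime]
    (h : ∀ (R P W : 𝒯) [MonObj R] [IsCommMonObj R] (b : BPS p R P W),
      b.SpecA1 ∧ b.SpecA2 ∧ b.SpecB1 ∧ b.SpecB2) : SpecSrc p n 𝒯 := by
  intro R P W _ _ b ld x hx hx2
  obtain ⟨A1, A2, B1, B2⟩ := h R P W b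
  have hA2 := fun (Y : 𝒯) (M : ModStr R Y) (hY : H395.PComplete p Y) =>
    A2 ld (b.srcT ld A1 B1 x hx) (b.opAlg ld A1 B1 B2 x hx hx2) rfl (fun _ _ => rfl) Y M hY
  refine ⟨b.srcT ld A1 B1 x hx, b.opAlg ld A1 B1 B2 x hx hx2, rfl, fun l => b.c_cext b.cP _,
    fun γ => ?_, fun Y M hY => ?_⟩
  · let := b.mdl b.MP b.cP
    obtain ⟨co, he, hc, -⟩ := hA2 P b.MP b.cP
    have h1 := co.ev 0 γ
    rw [he, hc, B2.T_zero] at h1
    exact h1
  · let := b.mdl M hY
    obtain ⟨co, he, hc, hc'⟩ := hA2 Y M hY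
    exact ⟨co, he, hc'⟩

end Vale.Agent.P221.T
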